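import Vale.Agent.P046.Track.Defs

/-!
P046: the pointwise drift inequality of the weight, per triangle.
-/

namespace Vale.Agent.P046.Track

/-- The slope of the weight above the prediction. -/
noncomputable def gg (p : ℝ) : ℝ := p * (2 + p) / (1 + p) ^ 2

/-- The slope of the upper tail. -/
noncomputable def rr (p : ℝ) : ℝ := gg p * (p ^ 2 / (1 + p)) / 5000

/-- The slope below the prediction, at `y = -x`. -/
noncomputable def hh (x : ℝ) : ℝ :=
  if x ≤ 1 / 8 then 2 * x + 3 * x ^ 2 - 48 * x ^ 3 else 13 / 64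

/-- The gain below the prediction, at `y = -x`. -/
noncomputable def ll (x : ℝ) : ℝ :=
  if x ≤ 1 / 8 then x ^ 4 * (26 - 36 * x) / (1 - x) else (219 * x - 22) / (1024 * (1 - x))

theorem own_pos {p : ℝ} (hp : 0 ≤ p) : own p = p * rr p / 2 ∧ dpsi p = gg p + rr p := by
  have h1 : (1 + p) ≠ 0 := by linarith
  constructor
  · simp only [own, dpsi, psi, dpsi0, psi0, rr, gg, if_pos hp]
    field_simp
    ring
  · simp only [dpsi, dpsi0, psi0, rr, gg, if_pos hp]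
    field_simp

theorem own_neg {x : ℝ} (h0 : 0 < x) (h1 : x < 1) : own (-x) = -ll x ∧ dpsi (-x) = -hh x := by
  have hn : ¬ (0 : ℝ) ≤ -x := by linarith
  have hx : (1 : ℝ) + -x ≠ 0 := by linarith
  have hx' : (1 : ℝ) - x ≠ 0 := by linarith
  by_cases h : x ≤ 1 / 8
  · have h' : -(1 / 8 : ℝ) ≤ -x := by linarith
    simp only [own, dpsi, psi, dpsi0, psi0, if_neg hn, if_pos h', ll, hh, if_pos h]
    constructor
    · rw [← sub_eq_add_neg]
      field_simp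
      ring
    · ring
  · have h' : ¬ -(1 / 8 : ℝ) ≤ -x := by linarith
    simp only [own, dpsi, psi, dpsi0, psi0, if_neg hn, if_neg h', ll, hh, if_neg h]
    refine ⟨?_, trivial⟩
    rw [← sub_eq_add_neg]
    field_simp
    ring

theorem gg_nonneg {p : ℝ} (hp : 0 ≤ p) : 0 ≤ gg p := by
  unfold gg; positivity

theorem gg_le {p : ℝ} (hp : 0 ≤ p) : gg p ≤ 2 * p := by
  unfold gg
  rw [div_le_iff₀ (by positivity)]
  nlinarith [mul_nonneg hp hp, pow_nonneg hp 3]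

theorem gg_sub {p q : ℝ} (hp : 0 ≤ p) (hq : 0 ≤ q) :
    gg p - gg q = (p - q) * (2 + p + q) / ((1 + p) ^ 2 * (1 + q) ^ 2) := by
  have h1 : (1 + p) ≠ 0 := by linarith
  have h2 : (1 + q) ≠ 0 := by linarith
  unfold gg
  field_simp
  ring

theorem gg_mono {p q : ℝ} (hp : 0 ≤ p) (hpq : p ≤ q) : gg p ≤ gg q := by
  have hq : 0 ≤ q := hp.trans hpq
  have h := gg_sub hq hp
  have : 0 ≤ (q - p) * (2 + q + p) / ((1 + q) ^ 2 * (1 + p) ^ 2) :=
    div_nonneg (mul_nonneg (by linarith) (by linarith)) (by positivity)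
  linarith

theorem gg_ratio {p q : ℝ} (hp : 0 ≤ p) (hq : 0 ≤ q) :
    (2 + (p + q)) / (1 + (p + q)) ^ 2 ≤ (2 + p) / (1 + p) ^ 2 := by
  rw [div_le_div_iff₀ (by positivity) (by positivity)]
  nlinarith [mul_nonneg hp hq, mul_nonneg (mul_nonneg hp hp) hq, mul_nonneg hq hq,
    mul_nonneg (mul_nonneg hp hq) hq]

theorem gg_subadd {p q : ℝ} (hp : 0 ≤ p) (hq : 0 ≤ q) : gg (p + q) ≤ gg p + gg q := by
  have h1 := mul_le_mul_of_nonneg_left (gg_ratio hp hq) hp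
  have h2 := mul_le_mul_of_nonneg_left (gg_ratio hq hp) hq
  rw [add_comm q p] at h2
  have e : ∀ r : ℝ, gg r = r * ((2 + r) / (1 + r) ^ 2) := fun r => by rw [gg, mul_div_assoc]
  rw [e, e, e, add_mul]
  linarith

theorem rr_nonneg {p : ℝ} (hp : 0 ≤ p) : 0 ≤ rr p := by
  unfold rr
  have := gg_nonneg hp
  positivity

theorem rr_le {p : ℝ} (hp : 0 ≤ p) : rr p ≤ p ^ 3 / 2500 := by
  have h1 : p ^ 2 / (1 + p) ≤ p ^ 2 := div_le_self (sq_nonneg p) (by linarith)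
  have h2 := gg_le hp
  have h3 : gg p * (p ^ 2 / (1 + p)) ≤ 2 * p * p ^ 2 :=
    mul_le_mul h2 h1 (by positivity) (by linarith)
  unfold rr
  linarith

/-- The error of the upper tail of one edge. -/
theorem tail_le {p U S : ℝ} (hp : 0 ≤ p) (hS : 0 ≤ S) (hU : p - S ≤ U) :
    rr p * (p / 2 - U) ≤ S ^ 4 / 2500 := by
  rcases le_total (p / 2 - U) 0 with h | h
  · exact (mul_nonpos_of_nonneg_of_nonpos (rr_nonneg hp) h).trans (by positivity)
  · have h2 : rr p * (p / 2 - U) ≤ p ^ 3 / 2500 * (S - p / 2) :=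
      mul_le_mul (rr_le hp) (by linarith) h (by positivity)
    have h3 : p ≤ 2 * S := by linarith
    have h4 : p ^ 3 * (S - p / 2) ≤ S ^ 4 := by
      nlinarith [sq_nonneg (p - 3 * S / 2), mul_nonneg hp hp, mul_nonneg hS hS,
        mul_nonneg (sq_nonneg (p - 3 * S / 2)) (mul_nonneg hp hS), sq_nonneg (p ^ 2 - 9 / 4 * S ^ 2)]
    linarith

theorem hh_small {x : ℝ} (h0 : 0 ≤ x) (h1 : x ≤ 1 / 8) :
    hh x = 2 * x + 3 * x ^ 2 - 48 * x ^ 3 := if_pos h1

theorem hh_big {x : ℝ} (h1 : 1 / 8 ≤ x) : hh x = 13 / 64 := by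
  rcases h1.eq_or_lt with h | h
  · subst h; norm_num [hh]
  · exact if_neg (not_le.2 h)

theorem ll_big {x : ℝ} (h1 : 1 / 8 ≤ x) : ll x = (219 * x - 22) / (1024 * (1 - x)) := by
  rcases h1.eq_or_lt with h | h
  · subst h; norm_num [ll]
  · exact if_neg (not_le.2 h)

theorem hh_nonneg {x : ℝ} (h0 : 0 ≤ x) : 0 ≤ hh x := by
  rcases le_total x (1 / 8) with h | h
  · rw [hh_small h0 h]; nlinarith [mul_nonneg h0 h0, mul_le_mul_of_nonneg_left h (mul_nonneg h0 h0)]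
  · rw [hh_big h]; norm_num

theorem hh_le {x : ℝ} (h0 : 0 ≤ x) : hh x ≤ 13 / 64 := by
  rcases le_total x (1 / 8) with h | h
  · rw [hh_small h0 h]
    nlinarith [mul_nonneg h0 h0, mul_le_mul_of_nonneg_left h (mul_nonneg h0 h0),
      mul_nonneg (sq_nonneg (x - 1 / 8)) h0, sq_nonneg (x - 1 / 8), h]
  · rw [hh_big h]

theorem hh_le_linear {x : ℝ} (h0 : 0 ≤ x) (h : x ≤ 1 / 8) : hh x ≤ 41 / 20 * x := by
  rw [hh_small h0 h]
  nlinarith [mul_nonneg h0 (sq_nonneg (x - 1 / 32))]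

theorem ll_small {x : ℝ} (h0 : 0 ≤ x) (h : x ≤ 1 / 8) : 24 * x ^ 4 ≤ ll x := by
  rw [ll, if_pos h, le_div_iff₀ (by linarith)]
  have : 0 ≤ x ^ 4 := by positivity
  nlinarith

/-- Both deviations small: the case of `(P - S)(H - g P) > 0`. -/
theorem case_a_small {x1 x2 : ℝ} (a0 : 0 ≤ x1) (a1 : x1 ≤ 1 / 8) (b0 : 0 ≤ x2) (b1 : x2 ≤ 1 / 8)
    (hW : 0 ≤ (hh x1 + hh x2) * (1 + (x1 + x2)) ^ 2 - 2 * (x1 + x2) - (x1 + x2) ^ 2) :
    ((hh x1 + hh x2) * (1 + (x1 + x2)) ^ 2 - 2 * (x1 + x2) - (x1 + x2) ^ 2) ^ 2 ≤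
      8 * (1 - (hh x1 + hh x2)) * (1 + (x1 + x2)) ^ 3 *
        (ll x1 + ll x2 - (x1 ^ 4 + x2 ^ 4) / 100) := by
  set H := hh x1 + hh x2 with hH
  set S := x1 + x2 with hS
  set Q := x1 ^ 2 + x2 ^ 2 with hQ
  set C := x1 ^ 3 + x2 ^ 3 with hC
  have hS0 : 0 ≤ S := by linarith
  have hS1 : S ≤ 1 / 4 := by linarith
  have eH : H = 2 * S + 3 * Q - 48 * C := by
    rw [hH, hh_small a0 a1, hh_small b0 b1, hS, hQ, hC]; ring
  have hCQ : Q * S ≤ 2 * C := by
    rw [hQ, hS, hC]; nlinarith [mul_nonneg (add_nonneg a0 b0) (sq_nonneg (x1 - x2))]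
  have hSQ : S ^ 2 ≤ 2 * Q := by rw [hQ, hS]; nlinarith [sq_nonneg (x1 - x2)]
  have hW9 : H * (1 + S) ^ 2 - 2 * S - S ^ 2 ≤ 9 * Q := by
    have h1 : H * (1 + S) ^ 2 ≤ (2 * S + 3 * Q) * (1 + S) ^ 2 - 48 * C := by
      rw [eH]
      have : 0 ≤ C := by rw [hC]; positivity
      nlinarith [mul_nonneg this (show 0 ≤ (1 + S) ^ 2 - 1 by nlinarith)]
    nlinarith [mul_nonneg hS0 hS0, mul_nonneg (sub_nonneg.2 hS1) (mul_nonneg hS0 (sq_nonneg S)),
      mul_le_mul_of_nonneg_left hSQ hS0, mul_le_mul_of_nonneg_left hS1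
        (mul_nonneg hS0 (show 0 ≤ Q by rw [hQ]; positivity))]
  have hHle : H ≤ 41 / 20 * S := by
    rw [hH, hS]; linarith [hh_le_linear a0 a1, hh_le_linear b0 b1]
  have hfac : 85 / 100 ≤ (1 - H) * (1 + S) ^ 3 := by
    refine le_trans ?_ (mul_le_mul_of_nonneg_right (sub_le_sub_left hHle 1) (by positivity))
    nlinarith [mul_nonneg hS0 hS0, mul_nonneg (sub_nonneg.2 hS1) hS0,
      mul_nonneg (mul_nonneg hS0 hS0) (sub_nonneg.2 hS1)]
  have hL : (23 + 99 / 100) * (x1 ^ 4 + x2 ^ 4) ≤ ll x1 + ll x2 - (x1 ^ 4 + x2 ^ 4) / 100 := by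
    linarith [ll_small a0 a1, ll_small b0 b1]
  have hQ4 : Q ^ 2 ≤ 2 * (x1 ^ 4 + x2 ^ 4) := by
    rw [hQ]; nlinarith [sq_nonneg (x1 ^ 2 - x2 ^ 2)]
  calc (H * (1 + S) ^ 2 - 2 * S - S ^ 2) ^ 2 ≤ (9 * Q) ^ 2 := by gcongr
    _ ≤ 8 * (85 / 100) * ((23 + 99 / 100) * (x1 ^ 4 + x2 ^ 4)) := by
        nlinarith [show 0 ≤ x1 ^ 4 + x2 ^ 4 by positivity]
    _ ≤ 8 * ((1 - H) * (1 + S) ^ 3) * (ll x1 + ll x2 - (x1 ^ 4 + x2 ^ 4) / 100) :=
        mul_le_mul (by linarith) hL (by positivity) (by linarith)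
    _ = _ := by ring

/-- One deviation large: the case of `(P - S)(H - g P) > 0`. -/
theorem case_a_big {x1 x2 : ℝ} (b0 : 0 ≤ x2) (hx : x2 ≤ x1) (h : 1 / 8 ≤ x1)
    (hgS : gg (x1 + x2) ≤ hh x1 + hh x2) :
    ((hh x1 + hh x2) * (1 + (x1 + x2)) ^ 2 - 2 * (x1 + x2) - (x1 + x2) ^ 2) ^ 2 ≤
      8 * (1 - (hh x1 + hh x2)) * (1 + (x1 + x2)) ^ 3 *
        (ll x1 + ll x2 - (x1 ^ 4 + x2 ^ 4) / 100) := by
  set H := hh x1 + hh x2 with hH
  set S := x1 + x2 with hS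
  set W := H * (1 + S) ^ 2 - 2 * S - S ^ 2 with hWdef
  have a0 : 0 ≤ x1 := b0.trans hx
  have hS0 : 0 ≤ S := by linarith
  have hH1 : H ≤ 13 / 32 := by linarith [hh_le a0, hh_le b0]
  have eW : W = (H - gg S) * (1 + S) ^ 2 := by
    rw [hWdef, gg]; field_simp; ring
  have hW : 0 ≤ W := by rw [eW]; exact mul_nonneg (by linarith) (sq_nonneg _)
  have hS1 : S ≤ 31 / 100 := by
    by_contra hc
    have h1 := gg_mono (show (0 : ℝ) ≤ 31 / 100 by norm_num) (not_le.1 hc).le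
    have h2 : (416 / 1000 : ℝ) ≤ gg (31 / 100) := by norm_num [gg]
    linarith
  have hS2 : 1 / 8 ≤ S := by linarith
  have hglow : 2097 / 10000 + 11 / 10 * (S - 1 / 8) ≤ gg S := by
    rw [gg, le_div_iff₀ (by positivity)]
    nlinarith [mul_nonneg (sub_nonneg.2 hS1) (sub_nonneg.2 hS2),
      mul_nonneg (mul_nonneg (sub_nonneg.2 hS1) (sub_nonneg.2 hS2)) hS0]
  have hdel : H - gg S ≤ 12 / 100 := by
    rcases le_total x2 (1 / 8) with g | g
    · linarith [hh_le a0, hh_le_linear b0 g]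
    · linarith [hh_le a0, hh_le b0]
  have hWle : W ≤ 12 / 100 * (1 + S) ^ 2 := by
    rw [eW]; exact mul_le_mul_of_nonneg_right hdel (sq_nonneg _)
  have hl : ∀ x : ℝ, 1 / 8 ≤ x → x ≤ 31 / 100 → 585 / 100000 ≤ ll x - x ^ 4 / 100 := by
    intro x u v
    have h5 : (595 : ℝ) / 100000 ≤ ll x := by
      rw [ll_big u, le_div_iff₀ (by linarith)]
      linarith
    have hp4 : x ^ 4 ≤ (31 / 100 : ℝ) ^ 4 := pow_le_pow_left₀ (by linarith) v 4
    linarith [show (31 / 100 : ℝ) ^ 4 ≤ 1 / 100 by norm_num]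
  have hl1 := hl x1 h (by linarith)
  have hl2 : 0 ≤ ll x2 - x2 ^ 4 / 100 := by
    rcases le_total x2 (1 / 8) with g | g
    · linarith [ll_small b0 g, show 0 ≤ x2 ^ 4 by positivity]
    · linarith [hl x2 g (by linarith)]
  have hS5 : (1 + S) ≤ 131 / 100 := by linarith
  calc W ^ 2 ≤ (12 / 100 * (1 + S) ^ 2) ^ 2 := by gcongr
    _ = (1 + S) ^ 3 * ((144 / 10000) * (1 + S)) := by ring
    _ ≤ (1 + S) ^ 3 * (8 * (1 - H) * (ll x1 + ll x2 - (x1 ^ 4 + x2 ^ 4) / 100)) := by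
        refine mul_le_mul_of_nonneg_left ?_ (by positivity)
        have h1 : 8 * (19 / 32) * (5 / 1000) ≤
            8 * (1 - H) * (ll x1 + ll x2 - (x1 ^ 4 + x2 ^ 4) / 100) :=
          mul_le_mul (by linarith) (by linarith) (by norm_num) (by linarith)
        linarith
    _ = _ := by ring


/-- The case `U > 0`, `V < 0`. -/
theorem case_a {x1 x2 P : ℝ} (b0 : 0 ≤ x2) (hx : x2 ≤ x1)
    (hP : x1 + x2 ≤ P) (hV : gg P ≤ hh x1 + hh x2) :
    (P - (x1 + x2)) * (hh x1 + hh x2 - gg P) ≤ ll x1 + ll x2 - (x1 ^ 4 + x2 ^ 4) / 100 := by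
  set H := hh x1 + hh x2 with hH
  set S := x1 + x2 with hS
  have a0 : 0 ≤ x1 := b0.trans hx
  have hS0 : 0 ≤ S := by linarith
  have hH1 : H ≤ 13 / 32 := by linarith [hh_le a0, hh_le b0]
  have hP0 : 0 ≤ P := hS0.trans hP
  have hgS : gg S ≤ H := (gg_mono hS0 hP).trans hV
  set W := H * (1 + S) ^ 2 - 2 * S - S ^ 2 with hWdef
  have eW : W = (H - gg S) * (1 + S) ^ 2 := by
    rw [hWdef, gg]; field_simp; ring
  have hW : 0 ≤ W := by rw [eW]; exact mul_nonneg (by linarith) (sq_nonneg _)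
  have hquad : 8 * (1 - H) * (1 + S) ^ 3 * ((P - S) * (H - gg P)) ≤ W ^ 2 := by
    have hb : (1 + P) ^ 2 * (1 - H) ≤ 1 := by
      have h : P * (2 + P) ≤ H * (1 + P) ^ 2 := (div_le_iff₀ (by positivity)).1 hV
      linarith [show (1 + P) ^ 2 * (1 - H) = 1 + (P * (2 + P) - H * (1 + P) ^ 2) by ring]
    have ht0 : 0 ≤ P - S := by linarith
    have h1H : 0 ≤ 1 - H := by linarith
    have hm : 2 * (1 - H) * (1 + S) * (P - S) ≤ (gg P - gg S) * (1 + S) ^ 2 := by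
      have e : (gg P - gg S) * (1 + S) ^ 2 = (P - S) * (2 + P + S) / (1 + P) ^ 2 := by
        rw [gg_sub hP0 hS0]; field_simp
      rw [e, le_div_iff₀ (by positivity)]
      calc 2 * (1 - H) * (1 + S) * (P - S) * (1 + P) ^ 2
          = (P - S) * (2 * (1 + S) * ((1 + P) ^ 2 * (1 - H))) := by ring
        _ ≤ (P - S) * (2 * (1 + S) * 1) :=
            mul_le_mul_of_nonneg_left (mul_le_mul_of_nonneg_left hb (by linarith)) ht0
        _ ≤ (P - S) * (2 + P + S) := mul_le_mul_of_nonneg_left (by linarith) ht0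
    have e : W = (H - gg P) * (1 + S) ^ 2 + (gg P - gg S) * (1 + S) ^ 2 := by rw [eW]; ring
    have hA : 0 ≤ (H - gg P) * (1 + S) ^ 2 := mul_nonneg (by linarith) (sq_nonneg _)
    have hc : 0 ≤ 2 * (1 - H) * (1 + S) * (P - S) := by positivity
    calc 8 * (1 - H) * (1 + S) ^ 3 * ((P - S) * (H - gg P))
        = 4 * ((H - gg P) * (1 + S) ^ 2) * (2 * (1 - H) * (1 + S) * (P - S)) := by ring
      _ ≤ ((H - gg P) * (1 + S) ^ 2 + 2 * (1 - H) * (1 + S) * (P - S)) ^ 2 := four_mul_le_sq_add _ _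
      _ ≤ W ^ 2 := by rw [e]; exact pow_le_pow_left₀ (add_nonneg hA hc) (by linarith) 2
  have hpos : 0 < 8 * (1 - H) * (1 + S) ^ 3 := by
    have : 0 < 1 - H := by linarith
    positivity
  refine le_of_mul_le_mul_left (hquad.trans ?_) hpos
  rcases le_total x1 (1 / 8) with h | h
  · exact case_a_small a0 h b0 (hx.trans h) hW
  exact case_a_big b0 hx h hgS

/-- The case `U < 0`, `V > 0`. -/
theorem case_b {x1 x2 : ℝ} (b0 : 0 ≤ x2) (hx : x2 ≤ x1) (a1 : x1 < 1) :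
    (2 * (x1 + x2) - (hh x1 + hh x2)) ^ 2 / 8 ≤ ll x1 + ll x2 - (x1 ^ 4 + x2 ^ 4) / 100 := by
  have a0 : 0 ≤ x1 := b0.trans hx
  rcases le_total x1 (1 / 8) with h | h
  · have g := hx.trans h
    rw [hh_small a0 h, hh_small b0 g]
    have hb : ∀ x : ℝ, 0 ≤ x → x ≤ 1 / 8 → |48 * x ^ 3 - 3 * x ^ 2| ≤ 3 * x ^ 2 := fun x u v => by
      rw [abs_le]
      constructor <;> nlinarith [mul_nonneg u (mul_nonneg u u),
        mul_le_mul_of_nonneg_left v (mul_nonneg u u)]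
    have e := abs_add_le (48 * x1 ^ 3 - 3 * x1 ^ 2) (48 * x2 ^ 3 - 3 * x2 ^ 2)
    have hsq : (2 * (x1 + x2) - (2 * x1 + 3 * x1 ^ 2 - 48 * x1 ^ 3
        + (2 * x2 + 3 * x2 ^ 2 - 48 * x2 ^ 3))) ^ 2 ≤ (3 * (x1 ^ 2 + x2 ^ 2)) ^ 2 := by
      rw [← sq_abs]
      gcongr
      refine le_trans (le_of_eq (by ring_nf)) (e.trans ?_)
      linarith [hb x1 a0 h, hb x2 b0 g]
    nlinarith [ll_small a0 h, ll_small b0 g, sq_nonneg (x1 ^ 2 - x2 ^ 2)]
  rcases le_total x2 (1 / 8) with g | g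
  · rw [hh_big h, hh_small b0 g, ll_big h]
    have hlo : -(1 / 300) ≤ 48 * x2 ^ 3 - 3 * x2 ^ 2 := by
      nlinarith [mul_nonneg b0 (sq_nonneg (x2 - 1 / 24)), sq_nonneg (x2 - 1 / 24)]
    have hhi : 48 * x2 ^ 3 - 3 * x2 ^ 2 ≤ 3 / 64 := by
      nlinarith [mul_le_mul_of_nonneg_left g (mul_nonneg b0 b0), mul_le_mul g g b0 (by norm_num)]
    have hsq : (2 * (x1 + x2) - (13 / 64 + (2 * x2 + 3 * x2 ^ 2 - 48 * x2 ^ 3))) ^ 2
        ≤ (2 * x1 - 5 / 32) ^ 2 := sq_le_sq' (by linarith) (by linarith)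
    have h1 : (2 * x1 - 5 / 32) ^ 2 / 8 ≤
        (219 * x1 - 22) / (1024 * (1 - x1)) - x1 ^ 4 / 100 := by
      rw [le_sub_iff_add_le, le_div_iff₀ (by linarith)]
      nlinarith [mul_nonneg (sub_nonneg.2 h) (sub_nonneg.2 a1.le), sq_nonneg (x1 - 6 / 10),
        mul_nonneg (mul_nonneg (sub_nonneg.2 h) (sub_nonneg.2 a1.le)) a0,
        mul_nonneg (sub_nonneg.2 h) (sq_nonneg (x1 - 6 / 10)),
        mul_le_mul_of_nonneg_right (pow_le_one₀ (n := 4) a0 a1.le) (sub_nonneg.2 a1.le)]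
    linarith [ll_small b0 g, show 0 ≤ x2 ^ 4 by positivity]
  · rw [hh_big h, hh_big g, ll_big h, ll_big g]
    have key : ∀ x : ℝ, 1 / 8 ≤ x → x < 1 →
        (2 * x - 13 / 64) ^ 2 / 4 ≤ (219 * x - 22) / (1024 * (1 - x)) - x ^ 4 / 100 := by
      intro x u v
      have x0 : 0 ≤ x := by linarith
      rw [le_sub_iff_add_le, le_div_iff₀ (by linarith)]
      have h4 : x ^ 4 * (1 - x) ≤ x * (1 - x) := by
        refine mul_le_mul_of_nonneg_right ?_ (by linarith)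
        simpa using pow_le_pow_of_le_one x0 v.le (show 1 ≤ 4 by norm_num)
      nlinarith [mul_nonneg (sub_nonneg.2 u) (sub_nonneg.2 v.le), sq_nonneg (x - 54 / 100),
        mul_nonneg x0 (sq_nonneg (x - 54 / 100)),
        mul_nonneg (sub_nonneg.2 u) (sq_nonneg (x - 54 / 100))]
    nlinarith [key x1 h a1, key x2 g (hx.trans_lt a1), sq_nonneg (x1 - x2)]

/-- The base inequality for two deviations below and the total `P` above. -/
theorem base {x1 x2 P G : ℝ} (b0 : 0 ≤ x2) (hx : x2 ≤ x1) (a1 : x1 < 1)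
    (hG1 : gg P ≤ G) (hG2 : G ≤ 2 * P) :
    (x1 ^ 4 + x2 ^ 4) / 100 ≤ ll x1 + ll x2 + (P - (x1 + x2)) * (G - (hh x1 + hh x2)) := by
  have hb := case_b b0 hx a1
  rcases le_total 0 ((P - (x1 + x2)) * (G - (hh x1 + hh x2))) with h | h
  · nlinarith
  rcases le_total (x1 + x2) P with hU | hU
  · rcases le_total (hh x1 + hh x2) (gg P) with hV | hV
    · nlinarith [mul_nonneg (sub_nonneg.2 hU) (sub_nonneg.2 (hV.trans hG1))]
    · nlinarith [case_a b0 hx hU hV, mul_le_mul_of_nonneg_left hG1 (sub_nonneg.2 hU)]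
  · nlinarith [mul_le_mul_of_nonneg_left hG2 (sub_nonneg.2 hU),
      sq_nonneg (4 * P - 2 * (x1 + x2) - (hh x1 + hh x2))]

theorem hh_zero : hh 0 = 0 ∧ ll 0 = 0 := by norm_num [hh, ll]

/-- The pointwise drift inequality for sorted arguments. -/
theorem core_sorted {a b c : ℝ} (ha : -1 < a) (hb : -1 < b) (hc : -1 < c) (hab : a ≤ b)
    (hbc : b ≤ c) : own a + own b + own c - (a + b + c) * (dpsi a + dpsi b + dpsi c) ≤ 0 := by
  by_cases a0 : 0 ≤ a
  · -- no deviation below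
    obtain ⟨e1, f1⟩ := own_pos a0
    have b0 : 0 ≤ b := a0.trans hab
    obtain ⟨e2, f2⟩ := own_pos b0
    have c0 : 0 ≤ c := b0.trans hbc
    obtain ⟨e3, f3⟩ := own_pos c0
    rw [e1, e2, e3, f1, f2, f3]
    have := gg_nonneg a0; have := gg_nonneg b0; have := gg_nonneg c0
    have := rr_nonneg a0; have := rr_nonneg b0; have := rr_nonneg c0
    nlinarith
  have ha' : 0 < -a := by linarith
  obtain ⟨e1, f1⟩ := own_neg ha' (by linarith)
  rw [neg_neg] at e1 f1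
  by_cases b0 : 0 ≤ b
  · -- one deviation below
    obtain ⟨e2, f2⟩ := own_pos b0
    have c0 : 0 ≤ c := b0.trans hbc
    obtain ⟨e3, f3⟩ := own_pos c0
    have hB := base (x1 := -a) (x2 := 0) (P := b + c) (G := gg b + gg c) le_rfl ha'.le (by linarith)
      (gg_subadd b0 c0) (by linarith [gg_le b0, gg_le c0])
    have t2 := tail_le b0 ha'.le (show b - -a ≤ a + b + c by linarith)
    have t3 := tail_le c0 ha'.le (show c - -a ≤ a + b + c by linarith)
    rw [hh_zero.1, hh_zero.2] at hB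
    rw [e1, e2, e3, f1, f2, f3]
    have h4 : 0 ≤ (-a) ^ 4 := by positivity
    linarith [show (a + b + c) * (-hh (-a) + (gg b + rr b) + (gg c + rr c))
        = (b + c - (-a + 0)) * (gg b + gg c - (hh (-a) + 0)) + ((a + b + c) * rr b + (a + b + c) * rr c) by ring,
      show b * rr b / 2 - (a + b + c) * rr b = rr b * (b / 2 - (a + b + c)) by ring,
      show c * rr c / 2 - (a + b + c) * rr c = rr c * (c / 2 - (a + b + c)) by ring]
  have hb' : 0 < -b := by linarith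
  obtain ⟨e2, f2⟩ := own_neg hb' (by linarith)
  rw [neg_neg] at e2 f2
  by_cases c0 : 0 ≤ c
  · -- two deviations below
    obtain ⟨e3, f3⟩ := own_pos c0
    have hB := base (x1 := -a) (x2 := -b) (P := c) (G := gg c) hb'.le (by linarith) (by linarith)
      le_rfl (gg_le c0)
    have t3 := tail_le c0 (show 0 ≤ -a + -b by linarith) (show c - (-a + -b) ≤ a + b + c by linarith)
    have hs : (-a + -b) ^ 4 ≤ 8 * ((-a) ^ 4 + (-b) ^ 4) := by
      have u1 : (-a + -b) ^ 2 ≤ 2 * ((-a) ^ 2 + (-b) ^ 2) := by nlinarith [sq_nonneg (a - b)]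
      have u2 := pow_le_pow_left₀ (sq_nonneg _) u1 2
      nlinarith [sq_nonneg (a ^ 2 - b ^ 2)]
    rw [e1, e2, e3, f1, f2, f3]
    have h4 : 0 ≤ (-a) ^ 4 + (-b) ^ 4 := by positivity
    linarith [show (a + b + c) * (-hh (-a) + -hh (-b) + (gg c + rr c))
        = (c - (-a + -b)) * (gg c - (hh (-a) + hh (-b))) + (a + b + c) * rr c by ring,
      show c * rr c / 2 - (a + b + c) * rr c = rr c * (c / 2 - (a + b + c)) by ring]
  -- three deviations below
  have hc' : 0 < -c := by linarith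
  obtain ⟨e3, f3⟩ := own_neg hc' (by linarith)
  rw [neg_neg] at e3 f3
  rw [e1, e2, e3, f1, f2, f3]
  have hl : ∀ x : ℝ, 0 < x → x < 1 → 0 ≤ ll x := fun x u v => by
    rcases le_total x (1 / 8) with g | g
    · exact le_trans (by positivity) (ll_small u.le g)
    · rw [ll_big g]; exact div_nonneg (by linarith) (by linarith)
  nlinarith [hl _ ha' (by linarith), hl _ hb' (by linarith), hl _ hc' (by linarith),
    hh_nonneg ha'.le, hh_nonneg hb'.le, hh_nonneg hc'.le]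

/-- **The pointwise drift inequality.** -/
theorem core {a b c : ℝ} (ha : -1 < a) (hb : -1 < b) (hc : -1 < c) :
    own a + own b + own c - (a + b + c) * (dpsi a + dpsi b + dpsi c) ≤ 0 := by
  have key : ∀ x y z : ℝ, -1 < x → -1 < y → -1 < z → x ≤ y → y ≤ z →
      own x + own y + own z - (x + y + z) * (dpsi x + dpsi y + dpsi z) ≤ 0 :=
    fun x y z h1 h2 h3 h4 h5 => core_sorted h1 h2 h3 h4 h5
  rcases le_total a b with h1 | h1 <;> rcases le_total b c with h2 | h2 <;>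
    rcases le_total a c with h3 | h3
  all_goals
    first
      | linarith [key a b c ha hb hc h1 h2]
      | linarith [key a c b ha hc hb h3 h2]
      | linarith [key c a b hc ha hb h3 h1]
      | linarith [key b a c hb ha hc h1 h3]
      | linarith [key b c a hb hc ha h2 h3]
      | linarith [key c b a hc hb ha h2 h1]

end Vale.Agent.P046.Track
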