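import Vale.Agent.P046.Track.Basic
import Vale.Agent.P046.Track.Core

/-!
P046: the mean change of the mass in one step.
-/

namespace Vale.Agent.P046.Track

open Finset

variable {V : Type} [Fintype V] [DecidableEq V] {A : Finset (Finset V)}

/-- The growth factor of `1/D` in one step. -/
noncomputable def rho (A : Finset (Finset V)) : ℝ :=
  ((A.card : ℝ) / ((A.card : ℝ) - 3)) ^ 2

theorem card_sdiff_cast {t : Finset V} (ht : t ∈ tri A) :
    ((A \ pairs t).card : ℝ) = (A.card : ℝ) - 3 := by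
  have h := card_sdiff_add_card_eq_card (tri_sub ht)
  rw [pairs_card ht] at h
  have h' : ((A \ pairs t).card : ℝ) + 3 = (A.card : ℝ) := by exact_mod_cast h
  linarith

theorem dd_sdiff {t : Finset V} (ht : t ∈ tri A) :
    dd (A \ pairs t) * (A.card : ℝ) ^ 2 = dd A * ((A.card : ℝ) - 3) ^ 2 := by
  simp only [dd, card_sdiff_cast ht]
  ring

namespace OnTrack

variable (hA : OnTrack A)
include hA

theorem rho_bounds : 1 ≤ rho A ∧ rho A - 1 ≤ 7 / A.card ∧ rho A ≤ 2 ∧
    |rho A - 1 - 6 / A.card| ≤ 40 / (A.card : ℝ) ^ 2 := by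
  have h0 := hA.card_ge
  have h3 : (0 : ℝ) < (A.card : ℝ) - 3 := by linarith
  have h1 : 1 ≤ rho A := by
    rw [rho]
    refine one_le_pow₀ ?_
    rw [le_div_iff₀ h3]; linarith
  have h2 : rho A - 1 ≤ 7 / A.card := by
    rw [rho, div_pow, div_sub_one (by positivity), div_le_div_iff₀ (by positivity) (by linarith)]
    nlinarith
  refine ⟨h1, h2, ?_, ?_⟩
  · have : (7 : ℝ) / A.card ≤ 1 := by rw [div_le_one (by linarith)]; linarith
    linarith
  · have e : rho A - 1 - 6 / A.card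
        = (27 * (A.card : ℝ) - 54) / ((A.card : ℝ) * ((A.card : ℝ) - 3) ^ 2) := by
      have : (A.card : ℝ) ≠ 0 := by linarith
      rw [rho]; field_simp; ring
    rw [e, abs_of_nonneg (div_nonneg (by linarith) (by positivity)),
      div_le_div_iff₀ (by positivity) (by positivity)]
    nlinarith [mul_pos h3 h3]

theorem dev_sdiff {t e : Finset V} (ht : t ∈ tri A) :
    dev (A \ pairs t) e - dev A e
      = (rho A - 1) * ((codeg A e : ℝ) / dd A) - rho A * ((lost A t e).card : ℝ) / dd A := by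
  obtain ⟨h, h'⟩ := codeg_sdiff A t e
  have hD := hA.dd_pos
  have h3 : (0 : ℝ) < (A.card : ℝ) - 3 := by linarith [hA.card_ge]
  have hE := hA.card_pos
  have hd : dd (A \ pairs t) = dd A / rho A := by
    have := dd_sdiff ht
    rw [rho]; field_simp; linarith
  rw [dev, dev, h, Nat.cast_sub h', hd, div_div_eq_mul_div]
  field_simp
  ring

/-- Taylor bound for the mass after one removal, summed over all removals. -/
theorem mass_taylor :
    ∑ t ∈ tri A, mass (A \ pairs t) ≤ ((tri A).card : ℝ) * mass A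
      - ∑ e ∈ A, (codeg A e : ℝ) * psi (dev A e)
      + (rho A - 1) / dd A * ∑ e ∈ A,
          dpsi (dev A e) * (codeg A e : ℝ) * (((tri A).card : ℝ) - codeg A e)
      - rho A / dd A * ∑ s ∈ tri A, ∑ e ∈ pairs s,
          dpsi (dev A e) * (sdeg A s - codeg A e - 2)
      + 8 * ((rho A - 1) ^ 2 / dd A ^ 2 * (((tri A).card : ℝ) * ∑ e ∈ A, (codeg A e : ℝ) ^ 2))
      + 24 * (rho A ^ 2 / dd A ^ 2 * (2 * ∑ e ∈ A, (codeg A e : ℝ) ^ 2)) := by
  have hD := hA.dd_pos
  obtain ⟨hr1, -, -, -⟩ := hA.rho_bounds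
  have hpt : ∀ t ∈ tri A, mass (A \ pairs t) ≤
      (∑ e ∈ A, psi (dev A e) - ∑ e ∈ pairs t, psi (dev A e))
      + ((rho A - 1) / dd A * (∑ e ∈ A, dpsi (dev A e) * (codeg A e : ℝ)
            - ∑ e ∈ pairs t, dpsi (dev A e) * (codeg A e : ℝ))
        - rho A / dd A * ∑ e ∈ A \ pairs t, dpsi (dev A e) * ((lost A t e).card : ℝ))
      + (8 * ((rho A - 1) ^ 2 / dd A ^ 2 * ∑ e ∈ A, (codeg A e : ℝ) ^ 2)
        + 24 * (rho A ^ 2 / dd A ^ 2 * ∑ e ∈ A \ pairs t, 1 * ((lost A t e).card : ℝ))) := by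
    intro t ht
    have hstep : ∀ e ∈ A \ pairs t, psi (dev (A \ pairs t) e) ≤ psi (dev A e)
        + ((rho A - 1) / dd A * (dpsi (dev A e) * (codeg A e : ℝ))
          - rho A / dd A * (dpsi (dev A e) * ((lost A t e).card : ℝ)))
        + (8 * ((rho A - 1) ^ 2 / dd A ^ 2 * (codeg A e : ℝ) ^ 2)
          + 24 * (rho A ^ 2 / dd A ^ 2 * (1 * ((lost A t e).card : ℝ)))) := by
      intro e he
      refine (psi_taylor (dev A e) _).trans ?_
      rw [hA.dev_sdiff ht]
      have hl : ((lost A t e).card : ℝ) ≤ 3 := by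
        exact_mod_cast lost_le ht (mem_sdiff.1 he).2
      have hl2 : ((lost A t e).card : ℝ) ^ 2 ≤ 3 * ((lost A t e).card : ℝ) := by
        nlinarith [(Nat.cast_nonneg _ : (0 : ℝ) ≤ ((lost A t e).card : ℝ))]
      have hb : (0 : ℝ) ≤ rho A ^ 2 / dd A ^ 2 := by positivity
      have h8 := mul_le_mul_of_nonneg_left hl2 hb
      have e1 : dpsi (dev A e) * ((rho A - 1) * ((codeg A e : ℝ) / dd A)
            - rho A * ((lost A t e).card : ℝ) / dd A)
          = (rho A - 1) / dd A * (dpsi (dev A e) * (codeg A e : ℝ))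
            - rho A / dd A * (dpsi (dev A e) * ((lost A t e).card : ℝ)) := by ring
      have e2 : ((rho A - 1) * ((codeg A e : ℝ) / dd A)
            - rho A * ((lost A t e).card : ℝ) / dd A) ^ 2
          ≤ 2 * ((rho A - 1) ^ 2 / dd A ^ 2 * (codeg A e : ℝ) ^ 2)
            + 2 * (rho A ^ 2 / dd A ^ 2 * ((lost A t e).card : ℝ) ^ 2) := by
        refine le_trans (le_of_eq_of_le rfl (add_sq_le (a := (rho A - 1) * ((codeg A e : ℝ) / dd A))
          (b := -(rho A * ((lost A t e).card : ℝ) / dd A)) |>.trans' (le_of_eq (by ring)))) ?_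
        exact le_of_eq (by ring)
      rw [e1]
      linarith
    refine (sum_le_sum hstep).trans ?_
    rw [sum_add_distrib, sum_add_distrib, sum_sub_distrib, sum_add_distrib]
    simp only [← mul_sum]
    rw [← sum_sdiff (f := fun e => psi (dev A e)) (tri_sub ht),
      ← sum_sdiff (f := fun e => dpsi (dev A e) * (codeg A e : ℝ)) (tri_sub ht)]
    have hmono : ∑ e ∈ A \ pairs t, (codeg A e : ℝ) ^ 2 ≤ ∑ e ∈ A, (codeg A e : ℝ) ^ 2 :=
      sum_le_sum_of_subset_of_nonneg sdiff_subset fun e _ _ => sq_nonneg _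
    have := mul_le_mul_of_nonneg_left hmono
      (show (0 : ℝ) ≤ 8 * ((rho A - 1) ^ 2 / dd A ^ 2) by positivity)
    linarith
  refine (sum_le_sum hpt).trans ?_
  simp only [sum_add_distrib, sum_sub_distrib, ← mul_sum, sum_const, nsmul_eq_mul, sum_lost,
    sum_tri_pairs, mass]
  have hlost : ∑ s ∈ tri A, ∑ e ∈ pairs s, (1 : ℝ) * (sdeg A s - codeg A e - 2)
      ≤ 2 * ∑ e ∈ A, (codeg A e : ℝ) ^ 2 := by
    rw [← sum_sdeg, mul_sum]
    refine sum_le_sum fun s hs => ?_
    simp only [one_mul, sum_sub_distrib, sum_const, pairs_card hs, nsmul_eq_mul, sdeg]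
    norm_num
    linarith
  have := mul_le_mul_of_nonneg_left hlost
    (show (0 : ℝ) ≤ 24 * (rho A ^ 2 / dd A ^ 2) by positivity)
  have e3 : ∑ e ∈ A, dpsi (dev A e) * (codeg A e : ℝ) * (((tri A).card : ℝ) - codeg A e)
      = ((tri A).card : ℝ) * ∑ e ∈ A, dpsi (dev A e) * (codeg A e : ℝ)
        - ∑ e ∈ A, (codeg A e : ℝ) * (dpsi (dev A e) * (codeg A e : ℝ)) := by
    rw [mul_sum, ← sum_sub_distrib]
    exact sum_congr rfl fun e _ => by ring
  rw [e3]
  have hl := sum_lost A fun _ => (1 : ℝ)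
  simp only [one_mul] at hl this ⊢
  rw [hl]
  linarith

omit hA in
theorem abs_dpsi_le (e : Finset V) : |dpsi (dev A e)| ≤ 3 * |dev A e| := dpsi_abs (dev_ge' A e)

/-- The linear form `Σ ψ'(1+y)`. -/
theorem g1_le : |∑ e ∈ A, dpsi (dev A e) * (1 + dev A e)| ≤ 90000 * A.card := by
  refine (abs_sum_le_sum_abs _ _).trans ?_
  have h : ∀ e ∈ A, |dpsi (dev A e) * (1 + dev A e)| ≤ 3 * (1 + 2 * dev A e ^ 2) := by
    intro e _
    rw [abs_mul]
    have h1 := abs_dpsi_le (A := A) e
    have h2 : |1 + dev A e| ≤ 1 + |dev A e| := by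
      have := abs_add_le (1 : ℝ) (dev A e); rwa [abs_one] at this
    calc |dpsi (dev A e)| * |1 + dev A e| ≤ 3 * |dev A e| * (1 + |dev A e|) :=
          mul_le_mul h1 h2 (abs_nonneg _) (by positivity)
      _ ≤ _ := by nlinarith [sq_nonneg (|dev A e| - 1), sq_abs (dev A e)]
  refine (sum_le_sum h).trans ?_
  rw [← mul_sum, sum_add_distrib, ← mul_sum, sum_const, nsmul_eq_mul, mul_one]
  linarith [hA.sq_sum, hA.card_pos]

theorem quad_le :
    |∑ e ∈ A, dpsi (dev A e) * (codeg A e : ℝ) ^ 2 / dd A| ≤ 30000000 * (A.card : ℝ) ^ 2 := by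
  have hD := hA.dd_pos
  refine (abs_sum_le_sum_abs _ _).trans ?_
  have h : ∀ e ∈ A, |dpsi (dev A e) * (codeg A e : ℝ) ^ 2 / dd A|
      ≤ 600 * (dd A * Real.sqrt A.card) * (1 + dev A e ^ 2) := by
    intro e he
    rw [hA.codeg_eq, mul_pow, show dpsi (dev A e) * (dd A ^ 2 * (1 + dev A e) ^ 2) / dd A
      = dd A * (dpsi (dev A e) * (1 + dev A e) ^ 2) by field_simp, abs_mul, abs_mul,
      abs_of_pos hD, abs_of_nonneg (sq_nonneg (1 + dev A e))]
    calc dd A * (|dpsi (dev A e)| * (1 + dev A e) ^ 2)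
        ≤ dd A * (3 * (100 * Real.sqrt A.card) * (2 * (1 + dev A e ^ 2))) := by
          refine mul_le_mul_of_nonneg_left ?_ hD.le
          refine mul_le_mul ((abs_dpsi_le (A := A) e).trans ?_) ?_ (sq_nonneg _) (by positivity)
          · linarith [hA.dev_abs_le he]
          · nlinarith [sq_nonneg (1 - dev A e)]
      _ = _ := by ring
  refine (sum_le_sum h).trans ?_
  rw [← mul_sum, sum_add_distrib, sum_const, nsmul_eq_mul, mul_one]
  calc 600 * (dd A * Real.sqrt A.card) * (A.card + ∑ e ∈ A, dev A e ^ 2)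
      ≤ 600 * (2 * (A.card : ℝ)) * (10001 * A.card) := by
        refine mul_le_mul (mul_le_mul_of_nonneg_left ?_ (by norm_num))
          (by linarith [hA.sq_sum]) (by positivity) (by positivity)
        nlinarith [hA.dd_le_sqrt, Real.mul_self_sqrt hA.card_pos.le, Real.sqrt_nonneg (A.card : ℝ)]
    _ ≤ _ := by nlinarith [hA.card_pos]

theorem coupling_le :
    |(∑ s ∈ tri A, ∑ e ∈ pairs s, dpsi (dev A e) * (sdeg A s - codeg A e)) / dd A|
      ≤ 80000000 * (A.card : ℝ) ^ 2 := by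
  have hD := hA.dd_pos
  rw [abs_div, abs_of_pos hD, div_le_iff₀ hD]
  refine (abs_sum_le_sum_abs _ _).trans ?_
  have h : ∀ s ∈ tri A, |∑ e ∈ pairs s, dpsi (dev A e) * (sdeg A s - codeg A e)|
      ≤ 9 * sdeg A s + 3 * (sdeg A s ^ 2 / dd A) := by
    intro s hs
    refine (abs_sum_le_sum_abs _ _).trans ?_
    have h1 : ∀ e ∈ pairs s, |dpsi (dev A e) * (sdeg A s - codeg A e)|
        ≤ 3 * sdeg A s + 3 * ((codeg A e : ℝ) * sdeg A s / dd A) := by
      intro e he
      have hse : (codeg A e : ℝ) ≤ sdeg A s :=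
        single_le_sum (f := fun f => (codeg A f : ℝ)) (fun f _ => Nat.cast_nonneg _) he
      rw [abs_mul, abs_of_nonneg (sub_nonneg.2 hse)]
      have hy : |dev A e| ≤ 1 + (codeg A e : ℝ) / dd A := by
        rw [dev, abs_le]
        have : 0 ≤ (codeg A e : ℝ) / dd A := by positivity
        constructor <;> linarith
      calc |dpsi (dev A e)| * (sdeg A s - codeg A e)
          ≤ 3 * (1 + (codeg A e : ℝ) / dd A) * sdeg A s := by
            refine mul_le_mul ((abs_dpsi_le (A := A) e).trans (by linarith)) ?_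
              (sub_nonneg.2 hse) (by positivity)
            linarith [(Nat.cast_nonneg _ : (0 : ℝ) ≤ codeg A e)]
        _ = _ := by ring
    refine (sum_le_sum h1).trans (le_of_eq ?_)
    rw [sum_add_distrib, sum_const, pairs_card hs, ← mul_sum, ← sum_div, ← sum_mul, ← sdeg]
    ring
  refine (sum_le_sum h).trans ?_
  rw [sum_add_distrib, ← mul_sum, ← mul_sum, sum_sdeg, ← sum_div]
  have hD2 := hA.dd_le_sqrt
  have hs := Real.mul_self_sqrt hA.card_pos.le
  have hb : dd A * Real.sqrt A.card ≤ 2 * A.card := by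
    nlinarith [Real.sqrt_nonneg (A.card : ℝ)]
  have hbound : 9 * (10002 * (dd A ^ 2 * A.card))
      + 3 * (3300000 * (dd A ^ 3 * (A.card * Real.sqrt A.card)) / dd A)
      ≤ 80000000 * (A.card : ℝ) ^ 2 * dd A := by
    rw [show 3300000 * (dd A ^ 3 * ((A.card : ℝ) * Real.sqrt A.card)) / dd A
      = 3300000 * ((dd A * Real.sqrt A.card) * (dd A * A.card)) by field_simp]
    nlinarith [mul_le_mul_of_nonneg_right hb (show 0 ≤ dd A * (A.card : ℝ) by positivity),
      mul_le_mul_of_nonneg_right hA.dd_le (show 0 ≤ dd A * (A.card : ℝ) by positivity)]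
  refine le_trans ?_ hbound
  gcongr
  · exact hA.sum_codeg_sq_le
  · exact hA.sum_sdeg_sq_le

/-- The pointwise inequality, summed over the triangles. -/
theorem core_sum :
    (∑ s ∈ tri A, ∑ e ∈ pairs s, dpsi (dev A e) * (2 * dd A - (sdeg A s - codeg A e))) / dd A
      ≤ (∑ e ∈ A, (codeg A e : ℝ) * psi (dev A e)) + dd A * mass A := by
  have hD := hA.dd_pos
  have h : ∀ s ∈ tri A,
      (∑ e ∈ pairs s, dpsi (dev A e) * (2 * dd A - (sdeg A s - codeg A e))) / dd A
        ≤ ∑ e ∈ pairs s, (psi (dev A e) + psi (dev A e) / (1 + dev A e)) := by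
    intro s hs
    obtain ⟨a, b, d, hab, had, hbd, he⟩ := card_eq_three.1 (pairs_card hs)
    have gt : ∀ e ∈ pairs s, -1 < dev A e := fun e he => by
      have : (1 : ℝ) ≤ codeg A e := by exact_mod_cast codeg_pos hs he
      have : 0 < (codeg A e : ℝ) / dd A := by positivity
      rw [dev]; linarith
    have ga := gt a (by simp [he])
    have gb := gt b (by simp [he])
    have gd := gt d (by simp [he])
    have hc := core ga gb gd
    have es : ∀ F : Finset V → ℝ, ∑ e ∈ ({a, b, d} : Finset (Finset V)), F e = F a + F b + F d :=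
      fun F => by simp [hab, had, hbd]; ring
    simp only [own] at hc
    simp only [sdeg, he, es, hA.codeg_eq]
    rw [div_le_iff₀ hD]
    have hpos : ∀ y : ℝ, -1 < y → psi y * (2 + y) / (1 + y) = psi y + psi y / (1 + y) := by
      intro y hy
      have : (1 + y) ≠ 0 := by linarith
      field_simp; ring
    rw [hpos _ ga, hpos _ gb, hpos _ gd] at hc
    have := mul_le_mul_of_nonneg_left hc hD.le
    nlinarith
  rw [sum_div]
  refine (sum_le_sum h).trans ?_
  rw [sum_tri_pairs (g := fun e => psi (dev A e) + psi (dev A e) / (1 + dev A e)), mass, mul_sum,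
    ← sum_add_distrib]
  refine sum_le_sum fun e _ => ?_
  rw [mul_add]
  refine add_le_add le_rfl ?_
  rcases eq_or_ne (codeg A e) 0 with h0 | h0
  · rw [h0, Nat.cast_zero, zero_mul]
    exact mul_nonneg hD.le (psi_nonneg _)
  · refine le_of_eq ?_
    have hc := hA.codeg_eq e
    have : (0 : ℝ) < 1 + dev A e := by
      have : (0 : ℝ) < codeg A e := by exact_mod_cast Nat.pos_of_ne_zero h0
      by_contra hn
      nlinarith
    rw [hc]; field_simp

/-- The linear part of the change, exactly. -/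
theorem linear_eq :
    (rho A - 1) / dd A * (∑ e ∈ A,
        dpsi (dev A e) * (codeg A e : ℝ) * (((tri A).card : ℝ) - codeg A e))
      - rho A / dd A * ∑ s ∈ tri A, ∑ e ∈ pairs s,
          dpsi (dev A e) * (sdeg A s - codeg A e - 2)
    = (rho A - 1) * ((tri A).card : ℝ) * (∑ e ∈ A, dpsi (dev A e) * (1 + dev A e))
      - (rho A - 1) * (∑ e ∈ A, dpsi (dev A e) * (codeg A e : ℝ) ^ 2 / dd A)
      - rho A * ((∑ s ∈ tri A, ∑ e ∈ pairs s, dpsi (dev A e) * (sdeg A s - codeg A e)) / dd A)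
      + 2 * rho A * (∑ e ∈ A, dpsi (dev A e) * (1 + dev A e)) := by
  have hD := hA.dd_pos
  have e1 : (rho A - 1) / dd A * (∑ e ∈ A,
        dpsi (dev A e) * (codeg A e : ℝ) * (((tri A).card : ℝ) - codeg A e))
      = (rho A - 1) * ((tri A).card : ℝ) * (∑ e ∈ A, dpsi (dev A e) * (1 + dev A e))
        - (rho A - 1) * (∑ e ∈ A, dpsi (dev A e) * (codeg A e : ℝ) ^ 2 / dd A) := by
    rw [mul_sum, mul_sum, mul_sum, ← sum_sub_distrib]
    refine sum_congr rfl fun e _ => ?_
    rw [hA.codeg_eq]; field_simp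
  have eG : ∑ s ∈ tri A, ∑ e ∈ pairs s, dpsi (dev A e)
      = dd A * (∑ e ∈ A, dpsi (dev A e) * (1 + dev A e)) := by
    rw [sum_tri_pairs, mul_sum]
    exact sum_congr rfl fun e _ => by rw [hA.codeg_eq]; ring
  have e2 : ∑ s ∈ tri A, ∑ e ∈ pairs s, dpsi (dev A e) * (sdeg A s - codeg A e - 2)
      = (∑ s ∈ tri A, ∑ e ∈ pairs s, dpsi (dev A e) * (sdeg A s - codeg A e))
        - 2 * (dd A * ∑ e ∈ A, dpsi (dev A e) * (1 + dev A e)) := by
    rw [← eG, mul_sum, ← sum_sub_distrib]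
    refine sum_congr rfl fun s _ => ?_
    rw [mul_sum, ← sum_sub_distrib]
    exact sum_congr rfl fun e _ => by ring
  rw [e1, e2]
  field_simp
  ring

/-- The main part of the change, by the pointwise inequality. -/
theorem main_part :
    2 * (1 + tw A) * dd A * (∑ e ∈ A, dpsi (dev A e) * (1 + dev A e))
      - (∑ s ∈ tri A, ∑ e ∈ pairs s, dpsi (dev A e) * (sdeg A s - codeg A e)) / dd A
      ≤ (∑ e ∈ A, (codeg A e : ℝ) * psi (dev A e)) + (1 + tw A) * dd A * mass A
        + 4 * tw A ^ 2 * A.card * dd A + 1000 * |tw A| * (dd A * mass A) := by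
  have hD := hA.dd_pos
  set G := ∑ e ∈ A, dpsi (dev A e) * (1 + dev A e) with hGdef
  have eG : ∑ s ∈ tri A, ∑ e ∈ pairs s, dpsi (dev A e) = dd A * G := by
    rw [sum_tri_pairs, hGdef, mul_sum]
    exact sum_congr rfl fun e _ => by rw [hA.codeg_eq]; ring
  have hcore : 2 * dd A * G
      - (∑ s ∈ tri A, ∑ e ∈ pairs s, dpsi (dev A e) * (sdeg A s - codeg A e)) / dd A
      ≤ (∑ e ∈ A, (codeg A e : ℝ) * psi (dev A e)) + dd A * mass A := by
    refine le_trans (le_of_eq ?_) hA.core_sum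
    have : ∑ s ∈ tri A, ∑ e ∈ pairs s, dpsi (dev A e) * (2 * dd A - (sdeg A s - codeg A e))
        = 2 * dd A * (dd A * G)
          - ∑ s ∈ tri A, ∑ e ∈ pairs s, dpsi (dev A e) * (sdeg A s - codeg A e) := by
      rw [← eG, mul_sum, ← sum_sub_distrib]
      refine sum_congr rfl fun s _ => ?_
      rw [mul_sum, ← sum_sub_distrib]
      exact sum_congr rfl fun e _ => by ring
    rw [this]; field_simp
  have hlin : 2 * G - mass A = 4 * ((A.card : ℝ) * tw A)
      + ∑ e ∈ A, (2 * (1 + dev A e) * dpsi (dev A e) - psi (dev A e) - 4 * dev A e) := by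
    rw [← hA.sum_dev, hGdef, mass, mul_sum, mul_sum, ← sum_sub_distrib, ← sum_add_distrib]
    exact sum_congr rfl fun e _ => by ring
  set R := ∑ e ∈ A, (2 * (1 + dev A e) * dpsi (dev A e) - psi (dev A e) - 4 * dev A e) with hR
  have hres : |R| ≤ 1000 * mass A := by
    rw [hR]
    refine (abs_sum_le_sum_abs _ _).trans ?_
    rw [mass, mul_sum]
    exact sum_le_sum fun e _ => psi_lin (dev_ge' A e)
  have hw2 : tw A * dd A * R ≤ |tw A| * dd A * (1000 * mass A) := by
    refine (le_abs_self _).trans ?_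
    rw [abs_mul, abs_mul, abs_of_pos hD]
    exact mul_le_mul_of_nonneg_left hres (by positivity)
  have e5 : 2 * (1 + tw A) * dd A * G = 2 * dd A * G + 2 * G * (tw A * dd A) := by ring
  have e6 : (2 * G - mass A) * (tw A * dd A)
      = 4 * tw A ^ 2 * A.card * dd A + tw A * dd A * R := by rw [hlin]; ring
  linarith [e5, e6, show (2 * G - mass A) * (tw A * dd A)
      = 2 * G * (tw A * dd A) - tw A * dd A * mass A by ring,
    show (1 + tw A) * dd A * mass A = dd A * mass A + tw A * dd A * mass A by ring,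
    show |tw A| * dd A * (1000 * mass A) = 1000 * |tw A| * (dd A * mass A) by ring]

/-- The square of the drift of `D`. -/
theorem square_part :
    8 * ((rho A - 1) ^ 2 / dd A ^ 2 * (((tri A).card : ℝ) * ∑ e ∈ A, (codeg A e : ℝ) ^ 2))
      ≤ 8 * 49 * 10002 * A.card := by
  have hD := hA.dd_pos
  have hE := hA.card_pos
  obtain ⟨hr1, hr2, -, -⟩ := hA.rho_bounds
  have h : (rho A - 1) ^ 2 ≤ (7 / A.card) ^ 2 := pow_le_pow_left₀ (sub_nonneg.2 hr1) hr2 2
  calc 8 * ((rho A - 1) ^ 2 / dd A ^ 2 * (((tri A).card : ℝ) * ∑ e ∈ A, (codeg A e : ℝ) ^ 2))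
      ≤ 8 * ((7 / A.card) ^ 2 / dd A ^ 2 *
          ((A.card : ℝ) * dd A * (10002 * (dd A ^ 2 * A.card)))) :=
        mul_le_mul_of_nonneg_left (mul_le_mul
          (div_le_div_of_nonneg_right h (sq_nonneg _))
          (mul_le_mul hA.tri_le hA.sum_codeg_sq_le (by positivity) (by positivity))
          (by positivity) (by positivity)) (by norm_num)
    _ = 8 * 49 * 10002 * dd A := by field_simp; ring
    _ ≤ _ := by linarith [hA.dd_le]

/-- The squared losses. -/
theorem loss_part :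
    24 * (rho A ^ 2 / dd A ^ 2 * (2 * ∑ e ∈ A, (codeg A e : ℝ) ^ 2))
      ≤ 24 * 4 * 2 * 10002 * A.card := by
  have hD := hA.dd_pos
  have hE := hA.card_pos
  obtain ⟨hr1, -, hr3, -⟩ := hA.rho_bounds
  have h : rho A ^ 2 ≤ 4 := by nlinarith
  calc 24 * (rho A ^ 2 / dd A ^ 2 * (2 * ∑ e ∈ A, (codeg A e : ℝ) ^ 2))
      ≤ 24 * (4 / dd A ^ 2 * (2 * (10002 * (dd A ^ 2 * A.card)))) :=
        mul_le_mul_of_nonneg_left (mul_le_mul (div_le_div_of_nonneg_right h (sq_nonneg _))
          (mul_le_mul_of_nonneg_left hA.sum_codeg_sq_le (by norm_num))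
          (by positivity) (by positivity)) (by norm_num)
    _ = _ := by field_simp

/-- The second-order terms of one step. -/
theorem error_part :
    (rho A - 1 - 6 / A.card) * ((tri A).card : ℝ) * (∑ e ∈ A, dpsi (dev A e) * (1 + dev A e))
      - (rho A - 1) * (∑ e ∈ A, dpsi (dev A e) * (codeg A e : ℝ) ^ 2 / dd A)
      - (rho A - 1) *
          ((∑ s ∈ tri A, ∑ e ∈ pairs s, dpsi (dev A e) * (sdeg A s - codeg A e)) / dd A)
      + 2 * rho A * (∑ e ∈ A, dpsi (dev A e) * (1 + dev A e))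
      + 8 * ((rho A - 1) ^ 2 / dd A ^ 2 * (((tri A).card : ℝ) * ∑ e ∈ A, (codeg A e : ℝ) ^ 2))
      + 24 * (rho A ^ 2 / dd A ^ 2 * (2 * ∑ e ∈ A, (codeg A e : ℝ) ^ 2))
      ≤ 4000000000 * A.card := by
  have hD := hA.dd_pos
  have hE := hA.card_pos
  obtain ⟨hr1, hr2, hr3, hr4⟩ := hA.rho_bounds
  have hG := hA.g1_le
  have hQ2 := hA.quad_le
  have hX := hA.coupling_le
  set G := ∑ e ∈ A, dpsi (dev A e) * (1 + dev A e)
  set Q2 := ∑ e ∈ A, dpsi (dev A e) * (codeg A e : ℝ) ^ 2 / dd A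
  set X := (∑ s ∈ tri A, ∑ e ∈ pairs s, dpsi (dev A e) * (sdeg A s - codeg A e)) / dd A
  set T := ((tri A).card : ℝ) with hTdef
  have hT0 : 0 ≤ T := Nat.cast_nonneg _
  have x1 : |(rho A - 1 - 6 / A.card) * T * G| ≤ 40 * 90000 * A.card := by
    rw [abs_mul, abs_mul, abs_of_nonneg hT0]
    calc |rho A - 1 - 6 / A.card| * T * |G|
        ≤ 40 / (A.card : ℝ) ^ 2 * ((A.card : ℝ) * dd A) * (90000 * A.card) :=
          mul_le_mul (mul_le_mul hr4 hA.tri_le hT0 (by positivity)) hG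
            (abs_nonneg _) (by positivity)
      _ = 40 * 90000 * dd A := by field_simp
      _ ≤ _ := by linarith [hA.dd_le]
  have x2 : |(rho A - 1) * Q2| ≤ 7 * 30000000 * A.card := by
    rw [abs_mul, abs_of_nonneg (sub_nonneg.2 hr1)]
    refine (mul_le_mul hr2 hQ2 (abs_nonneg _) (by positivity)).trans (le_of_eq ?_)
    field_simp
  have x3 : |(rho A - 1) * X| ≤ 7 * 80000000 * A.card := by
    rw [abs_mul, abs_of_nonneg (sub_nonneg.2 hr1)]
    refine (mul_le_mul hr2 hX (abs_nonneg _) (by positivity)).trans (le_of_eq ?_)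
    field_simp
  have x4 : |2 * rho A * G| ≤ 4 * 90000 * A.card := by
    rw [abs_mul, abs_of_nonneg (show (0 : ℝ) ≤ 2 * rho A by linarith)]
    calc 2 * rho A * |G| ≤ 4 * (90000 * A.card) :=
          mul_le_mul (by linarith) hG (abs_nonneg _) (by norm_num)
      _ = _ := by ring
  have x5 := hA.square_part
  have x6 := hA.loss_part
  linarith [(abs_le.1 x1).2, (abs_le.1 x2).1, (abs_le.1 x3).1, (abs_le.1 x4).2, x5, x6]

/-- **The mean change of the mass.** -/
theorem mass_step :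
    ∑ t ∈ tri A, mass (A \ pairs t) ≤ ((tri A).card : ℝ) * mass A
      + 3 * ((tri A).card : ℝ) * mass A / A.card
      + 4 * tw A ^ 2 * A.card * dd A + 1000 * |tw A| * (dd A * mass A)
      + 4000000000 * A.card := by
  have hE := hA.card_pos
  have main := hA.mass_taylor
  have hl := hA.linear_eq
  have hm := hA.main_part
  have he := hA.error_part
  set G := ∑ e ∈ A, dpsi (dev A e) * (1 + dev A e)
  set Q2 := ∑ e ∈ A, dpsi (dev A e) * (codeg A e : ℝ) ^ 2 / dd A
  set X := (∑ s ∈ tri A, ∑ e ∈ pairs s, dpsi (dev A e) * (sdeg A s - codeg A e)) / dd A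
  have e3 : 3 * ((tri A).card : ℝ) * mass A / A.card = (1 + tw A) * dd A * mass A := by
    rw [hA.tri_eq]; field_simp
  have e4 : (rho A - 1) * ((tri A).card : ℝ) * G
      = (rho A - 1 - 6 / A.card) * ((tri A).card : ℝ) * G + 2 * (1 + tw A) * dd A * G := by
    rw [hA.tri_eq]; field_simp; ring
  rw [e3]
  linarith [show rho A * X = X + (rho A - 1) * X by ring]

end OnTrack

end Vale.Agent.P046.Track
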