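import Vale.Agent.P046.Track.Defs

/-!
P046: the elementary properties of the weight `psi`.
-/

namespace Vale.Agent.P046.Track

theorem psi_of_nonneg {y : ℝ} (h : 0 ≤ y) :
    psi y = y ^ 2 / (1 + y) + (y ^ 2 / (1 + y)) ^ 2 / 10000 ∧
      dpsi y = y * (2 + y) / (1 + y) ^ 2 * (1 + y ^ 2 / (1 + y) / 5000) := by
  simp [psi, dpsi, psi0, dpsi0, h]

theorem psi_of_mid {y : ℝ} (h1 : -(1 / 8) ≤ y) (h2 : y ≤ 0) :
    psi y = y ^ 2 - y ^ 3 - 12 * y ^ 4 ∧ dpsi y = 2 * y - 3 * y ^ 2 - 48 * y ^ 3 := by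
  rcases h2.lt_or_eq with h | h
  · simp only [psi, dpsi, psi0, dpsi0, not_le.2 h, h1, if_true, if_false, and_self]
  · subst h; simp [psi, dpsi, psi0, dpsi0]

theorem psi_of_low {y : ℝ} (h : y ≤ -(1 / 8)) :
    psi y = (-208 * y - 11) / 1024 ∧ dpsi y = -(13 / 64) := by
  rcases h.lt_or_eq with h' | h'
  · simp only [psi, dpsi, psi0, dpsi0, not_le.2 h', not_le.2 (by linarith : y < 0), if_false,
      and_self]
  · subst h'; norm_num [psi, dpsi, psi0, dpsi0]

/-- The three regimes. -/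
theorem regime (y : ℝ) : 0 ≤ y ∨ (-(1 / 8) ≤ y ∧ y ≤ 0) ∨ y ≤ -(1 / 8) := by
  rcases le_or_gt 0 y with h | h
  · exact Or.inl h
  · rcases le_or_gt (-(1 / 8)) y with h' | h'
    · exact Or.inr (Or.inl ⟨h', h.le⟩)
    · exact Or.inr (Or.inr h'.le)

theorem psi_nonneg (y : ℝ) : 0 ≤ psi y := by
  rcases regime y with h | ⟨h1, h2⟩ | h
  · rw [(psi_of_nonneg h).1]; positivity
  · rw [(psi_of_mid h1 h2).1]
    nlinarith [sq_nonneg y, mul_le_mul_of_nonneg_left (pow_le_pow_left₀ (by linarith : 0 ≤ -y)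
      (by linarith : -y ≤ 1 / 8) 2) (sq_nonneg y), mul_nonneg (sq_nonneg y) (by linarith : 0 ≤ -y)]
  · rw [(psi_of_low h).1]; linarith

theorem psi_small {y : ℝ} (h : |y| ≤ 1 / 8) : psi y ≤ 2 * y ^ 2 := by
  obtain ⟨h1, h2⟩ := abs_le.1 h
  rcases le_or_gt 0 y with h0 | h0
  · have hp : y ^ 2 / (1 + y) ≤ y ^ 2 := div_le_self (sq_nonneg y) (by linarith)
    have hp0 : 0 ≤ y ^ 2 / (1 + y) := by positivity
    have hy1 : y ^ 2 ≤ 1 := by nlinarith
    rw [(psi_of_nonneg h0).1]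
    nlinarith [mul_le_mul hp hp hp0 (sq_nonneg y), mul_le_of_le_one_left (sq_nonneg y) hy1]
  · rw [(psi_of_mid h1 h0.le).1]
    nlinarith [mul_nonneg (sq_nonneg y) (sq_nonneg y),
      mul_le_mul_of_nonneg_left (by linarith : -y ≤ 1 / 8) (sq_nonneg y)]

theorem sq_le_psi {y : ℝ} (hy : -1 ≤ y) : y ^ 2 ≤ 40000 * psi y := by
  rcases regime y with h | ⟨h1, h2⟩ | h
  · rw [(psi_of_nonneg h).1]
    set p := y ^ 2 / (1 + y) with hp
    have hp0 : 0 ≤ p := by positivity
    rcases le_or_gt y 1 with h' | h'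
    · have : y ^ 2 ≤ 2 * p := by
        rw [hp, mul_div_assoc', le_div_iff₀ (by linarith)]; nlinarith
      nlinarith
    · have : y ≤ 2 * p := by
        rw [hp, mul_div_assoc', le_div_iff₀ (by linarith)]; nlinarith
      nlinarith
  · rw [(psi_of_mid h1 h2).1]
    nlinarith [mul_le_mul_of_nonneg_left (pow_le_pow_left₀ (by linarith : 0 ≤ -y)
      (by linarith : -y ≤ 1 / 8) 2) (sq_nonneg y), mul_nonneg (sq_nonneg y) (by linarith : 0 ≤ -y)]
  · rw [(psi_of_low h).1]; nlinarith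

theorem dpsi_abs {y : ℝ} (hy : -1 ≤ y) : |dpsi y| ≤ 3 * |y| := by
  rcases regime y with h | ⟨h1, h2⟩ | h
  · rw [(psi_of_nonneg h).2, abs_of_nonneg (by positivity), abs_of_nonneg h]
    have hp : y ^ 2 / (1 + y) ≤ y := by rw [div_le_iff₀ (by linarith)]; nlinarith
    have h1 : y * (2 + y) / (1 + y) ^ 2 ≤ 2 * y := by
      rw [div_le_iff₀ (by positivity)]; nlinarith
    have h2 : y * (2 + y) / (1 + y) ^ 2 ≤ 1 := by rw [div_le_one (by positivity)]; nlinarith
    have h3 := mul_le_mul h2 hp (by positivity) zero_le_one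
    nlinarith
  · rw [(psi_of_mid h1 h2).2, abs_of_nonpos h2, abs_le]
    constructor
    · nlinarith [mul_nonneg (by linarith : 0 ≤ -y) (sq_nonneg y)]
    · nlinarith [mul_le_mul_of_nonneg_left (pow_le_pow_left₀ (by linarith : 0 ≤ -y)
        (by linarith : -y ≤ 1 / 8) 2) (by linarith : 0 ≤ -y), sq_nonneg y]
  · rw [(psi_of_low h).2, abs_of_nonpos (by norm_num), abs_of_nonpos (by linarith)]
    linarith

theorem psi_lin {y : ℝ} (hy : -1 ≤ y) :
    |2 * (1 + y) * dpsi y - psi y - 4 * y| ≤ 1000 * psi y := by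
  rcases regime y with h | ⟨h1, h2⟩ | h
  · rw [(psi_of_nonneg h).1, (psi_of_nonneg h).2]
    set p := y ^ 2 / (1 + y) with hp
    have hp0 : 0 ≤ p := by positivity
    have hr : y * (2 + y) / (1 + y) = 2 * y - p := by rw [hp]; field_simp; ring
    have e : 2 * (1 + y) * (y * (2 + y) / (1 + y) ^ 2 * (1 + p / 5000)) =
        2 * (y * (2 + y) / (1 + y)) * (1 + p / 5000) := by field_simp
    have hyp : y ≤ p + 1 := by
      rw [hp, div_add_one (by linarith : (1 + y) ≠ 0), le_div_iff₀ (by linarith)]; nlinarith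
    have hpy : p ≤ y := by rw [hp, div_le_iff₀ (by linarith)]; nlinarith
    rw [e, hr, abs_le]
    constructor
    · nlinarith [mul_nonneg hp0 (by linarith : 0 ≤ 2 * y - p), sq_nonneg p]
    · nlinarith [mul_le_mul_of_nonneg_left hyp hp0, sq_nonneg p]
  · rw [(psi_of_mid h1 h2).1, (psi_of_mid h1 h2).2]
    have k1 := mul_le_mul_of_nonneg_left (pow_le_pow_left₀ (by linarith : 0 ≤ -y)
      (by linarith : -y ≤ 1 / 8) 2) (sq_nonneg y)
    have k2 := mul_le_mul_of_nonneg_left (by linarith : -y ≤ 1 / 8) (sq_nonneg y)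
    have k3 := mul_nonneg (sq_nonneg y) (by linarith : 0 ≤ -y)
    rw [abs_le]
    constructor <;> nlinarith [sq_nonneg y]
  · rw [(psi_of_low h).1, (psi_of_low h).2, abs_le]
    constructor <;> nlinarith

/-- The tangent-parabola bound at curvature `8`. -/
def Tang (y z : ℝ) : Prop := psi z ≤ psi y + dpsi y * (z - y) + 4 * (z - y) ^ 2

/-- The bound on two adjacent intervals gives it on their union. -/
theorem tang_trans {y b z : ℝ} (hbetween : (y ≤ b ∧ b ≤ z) ∨ (z ≤ b ∧ b ≤ y))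
    (h1 : Tang y b) (h2 : Tang b y) (h3 : Tang b z) : Tang y z := by
  unfold Tang at *
  rcases hbetween with ⟨u, v⟩ | ⟨u, v⟩
  · rcases u.lt_or_eq with u' | u'
    · have hd : dpsi b ≤ dpsi y + 8 * (b - y) := by
        by_contra hc
        nlinarith [mul_lt_mul_of_pos_left (not_le.1 hc) (sub_pos.2 u')]
      nlinarith [mul_le_mul_of_nonneg_left hd (sub_nonneg.2 v)]
    · subst u'; exact h3
  · rcases v.lt_or_eq with v' | v'
    · have hd : dpsi y + 8 * (b - y) ≤ dpsi b := by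
        by_contra hc
        nlinarith [mul_lt_mul_of_pos_left (not_le.1 hc) (sub_pos.2 v')]
      nlinarith [mul_le_mul_of_nonneg_left hd (sub_nonneg.2 u)]
    · subst v'; exact h3

theorem tang_low {y z : ℝ} (hy : y ≤ -(1 / 8)) (hz : z ≤ -(1 / 8)) : Tang y z := by
  rw [Tang, (psi_of_low hy).1, (psi_of_low hy).2, (psi_of_low hz).1]
  nlinarith [sq_nonneg (z - y)]

theorem tang_mid {y z : ℝ} (hy : -(1 / 8) ≤ y) (hy' : y ≤ 0) (hz : -(1 / 8) ≤ z) (hz' : z ≤ 0) :
    Tang y z := by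
  rw [Tang, (psi_of_mid hy hy').1, (psi_of_mid hy hy').2, (psi_of_mid hz hz').1]
  have h : 1 - (z + 2 * y) - 12 * (z ^ 2 + 2 * z * y + 3 * y ^ 2) ≤ 4 := by
    nlinarith [sq_nonneg (z + y), sq_nonneg y]
  nlinarith [mul_le_mul_of_nonneg_left h (sq_nonneg (z - y))]

theorem tang_high {y z : ℝ} (hy : 0 ≤ y) (hz : 0 ≤ z) : Tang y z := by
  rw [Tang, (psi_of_nonneg hy).1, (psi_of_nonneg hy).2, (psi_of_nonneg hz).1]
  set P := y ^ 2 / (1 + y) with hP
  set Q := z ^ 2 / (1 + z) with hQ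
  set P1 := y * (2 + y) / (1 + y) ^ 2 with hP1
  have hP0 : 0 ≤ P := by positivity
  set c := 1 / ((1 + z) * (1 + y) ^ 2) with hc
  have hexact : Q - P - P1 * (z - y) = c * (z - y) ^ 2 := by
    rw [hP, hQ, hP1, hc]; field_simp; ring
  have hc1 : c ≤ 1 := by
    rw [hc, div_le_one (by positivity)]
    exact one_le_mul_of_one_le_of_one_le (by linarith) (one_le_pow₀ (by linarith))
  have hc0 : 0 ≤ c := by positivity
  have hPc : P * c ≤ 1 := by
    rw [hP, hc, div_mul_div_comm, div_le_one (by positivity), mul_one]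
    nlinarith [mul_le_mul_of_nonneg_left (show (1 : ℝ) ≤ (1 + z) * (1 + y) by nlinarith)
      (sq_nonneg (1 + y))]
  have hslope : (Q - P) ^ 2 ≤ (z - y) ^ 2 := by
    have e : Q - P = (z - y) * ((y + z + y * z) / ((1 + y) * (1 + z))) := by
      rw [hP, hQ]; field_simp; ring
    rw [e, mul_pow]
    refine mul_le_of_le_one_right (sq_nonneg _) (pow_le_one₀ (by positivity) ?_)
    rw [div_le_one (by positivity)]; nlinarith
  have hQ' : Q ^ 2 - P ^ 2 - 2 * P * (P1 * (z - y))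
      = (Q - P) ^ 2 + 2 * P * (c * (z - y) ^ 2) := by rw [← hexact]; ring
  nlinarith [mul_le_mul_of_nonneg_right hc1 (sq_nonneg (z - y)),
    mul_le_mul_of_nonneg_right hPc (sq_nonneg (z - y)), sq_nonneg (z - y)]

theorem tang_upper {y z : ℝ} (hy : -(1 / 8) ≤ y) (hz : -(1 / 8) ≤ z) : Tang y z := by
  rcases le_total y 0 with hy' | hy' <;> rcases le_total z 0 with hz' | hz'
  · exact tang_mid hy hy' hz hz'
  · exact tang_trans (b := 0) (Or.inl ⟨hy', hz'⟩) (tang_mid hy hy' (by norm_num) le_rfl)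
      (tang_mid (by norm_num) le_rfl hy hy') (tang_high le_rfl hz')
  · exact tang_trans (b := 0) (Or.inr ⟨hz', hy'⟩) (tang_high hy' le_rfl)
      (tang_high le_rfl hy') (tang_mid (by norm_num) le_rfl hz hz')
  · exact tang_high hy' hz'

theorem psi_taylor (y z : ℝ) : psi z ≤ psi y + dpsi y * (z - y) + 4 * (z - y) ^ 2 := by
  show Tang y z
  rcases le_total y (-(1 / 8)) with hy | hy <;> rcases le_total z (-(1 / 8)) with hz | hz
  · exact tang_low hy hz
  · exact tang_trans (b := -(1 / 8)) (Or.inl ⟨hy, hz⟩) (tang_low hy le_rfl)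
      (tang_low le_rfl hy) (tang_upper le_rfl hz)
  · exact tang_trans (b := -(1 / 8)) (Or.inr ⟨hz, hy⟩) (tang_upper hy le_rfl)
      (tang_upper le_rfl hy) (tang_low le_rfl hz)
  · exact tang_upper hy hz

end Vale.Agent.P046.Track
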