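import Vale.Agent.P046.Stopping
import Vale.Agent.P046.Track.Psi

/-!
From the one-step drift of the Lyapunov function to the tail and the mean of the leave.
-/

namespace Vale.Agent.P046.Track

open Finset

/-- The one-step drift bound for the Lyapunov function. -/
def LyapStep (K : ℝ) : Prop :=
  ∀ (V : Type) [Fintype V] [DecidableEq V] (A : Finset (Finset V)),
    (∀ e ∈ A, e.card = 2) → 100 ≤ A.card → 1 ≤ dd A → err A ≤ 1 / 4 →
      ∑ t ∈ tri A, lyap (A \ pairs t)
        ≤ (tri A).card * (lyap A * (1 + K * |tw A| / A.card) + K / A.card)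

section General

variable {V : Type} [Fintype V] [DecidableEq V]

theorem probGT_eq_zero {L : ℝ} {A : Finset (Finset V)} (h : (A.card : ℝ) ≤ L) :
    probGT L A = 0 := by
  refine le_antisymm (procVal_le _ (fun _ => 0) A (fun B hB _ => ?_) (fun B _ _ => by simp))
    (probGT_nonneg L A)
  have : (B.card : ℝ) ≤ A.card := by exact_mod_cast card_le_card hB
  rw [if_neg (not_lt.2 (this.trans h))]

omit [DecidableEq V] in
theorem dd_nonneg (A : Finset (Finset V)) : 0 ≤ dd A := by unfold dd; positivity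

theorem dev_ge (A : Finset (Finset V)) (e : Finset V) : -1 ≤ dev A e := by
  have : 0 ≤ (codeg A e : ℝ) / dd A := div_nonneg (Nat.cast_nonneg _) (dd_nonneg A)
  unfold dev; linarith

theorem five_sq_le_err (hnn : ∀ y : ℝ, -1 ≤ y → 0 ≤ psi y) (A : Finset (Finset V)) :
    5 * tw A ^ 2 ≤ err A := by
  have : 0 ≤ mass A / (A.card : ℝ) :=
    div_nonneg (sum_nonneg fun e _ => hnn _ (dev_ge A e)) (Nat.cast_nonneg _)
  unfold err; linarith

theorem err_nonneg (hnn : ∀ y : ℝ, -1 ≤ y → 0 ≤ psi y) (A : Finset (Finset V)) : 0 ≤ err A :=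
  le_trans (by positivity) (five_sq_le_err hnn A)

/-- Along a state where the Lyapunov function is below its threshold at `L`, the triangle count
is within `L / (2E)` of its prediction. -/
theorem tw_small (hnn : ∀ y : ℝ, -1 ≤ y → 0 ≤ psi y) {A : Finset (Finset V)} {L : ℝ}
    (hV : 0 < (Fintype.card V : ℝ)) (hL : 0 < L) (hA : L < A.card)
    (h : lyap A < L ^ 2 / (Fintype.card V : ℝ) ^ 3) :
    err A ≤ 1 / 4 ∧ |tw A| ≤ L / (2 * A.card) := by
  have hE : (0 : ℝ) < A.card := hL.trans hA
  have h1 : err A * (4 * (A.card : ℝ) ^ 2) < L ^ 2 := by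
    rw [lyap, dd, lt_div_iff₀ (by positivity)] at h
    refine lt_of_le_of_lt (le_of_eq ?_) h
    field_simp
  have h2 := five_sq_le_err hnn A
  have h3 := err_nonneg hnn A
  refine ⟨?_, ?_⟩
  · by_contra hc
    nlinarith [mul_lt_mul_of_pos_right (not_le.1 hc) (show 0 < 4 * (A.card : ℝ) ^ 2 by positivity)]
  · rw [le_div_iff₀ (by positivity)]
    refine (pow_le_pow_iff_left₀ (by positivity) hL.le two_ne_zero).1 ?_
    rw [mul_pow, sq_abs]
    nlinarith [mul_le_mul_of_nonneg_right h2 (show 0 ≤ 4 * (A.card : ℝ) ^ 2 by positivity),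
      mul_nonneg (sq_nonneg (tw A)) (show 0 ≤ (A.card : ℝ) ^ 2 by positivity)]

/-- The Lyapunov function, damped against its multiplicative drift and cut off at `L`. -/
noncomputable def cutLyap (K L : ℝ) (A : Finset (Finset V)) : ℝ :=
  if (A.card : ℝ) ≤ L then 0 else Real.exp (-(K / 6 * (L / A.card))) * lyap A

/-- The damped Lyapunov function drifts up by at most `K / E` while it is below its threshold. -/
theorem cut_step {K : ℝ} (hK : 0 ≤ K) (hstep : LyapStep K)
    (hnn : ∀ y : ℝ, -1 ≤ y → 0 ≤ psi y) {A : Finset (Finset V)} (h2 : ∀ e ∈ A, e.card = 2)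
    (hV : 0 < (Fintype.card V : ℝ)) {L : ℝ} (hL : 100 ≤ L)
    (hLn : (Fintype.card V : ℝ) ^ 3 ≤ 4 * L ^ 2) (hA : L < A.card)
    (hz' : lyap A < L ^ 2 / (Fintype.card V : ℝ) ^ 3) :
    ∑ t ∈ tri A, cutLyap K L (A \ pairs t)
      ≤ (tri A).card * (cutLyap K L A + K / A.card) := by
  set N := (Fintype.card V : ℝ) ^ 3 with hN
  have hN0 : 0 < N := by positivity
  have hL0 : 0 < L := by linarith
  have hly : ∀ A : Finset (Finset V), 0 ≤ lyap A := fun A =>
    mul_nonneg (dd_nonneg A) (err_nonneg hnn A)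
  have hE : (0 : ℝ) < A.card := hL0.trans hA
  rw [cutLyap, if_neg (not_le.2 hA)]
  set g := Real.exp (-(K / 6 * (L / A.card))) with hg
  have hgpos : 0 < g := Real.exp_pos _
  obtain ⟨herr, htw⟩ := tw_small hnn hV hL0 hA hz'
  have hcard : 100 ≤ A.card := by
    have : ((100 : ℕ) : ℝ) ≤ A.card := by push_cast; linarith
    exact_mod_cast this
  have hdd : 1 ≤ dd A := by
    rw [dd, ← hN, le_div_iff₀ hN0]; nlinarith
  have hs := hstep V A h2 hcard hdd herr
  set E' : ℝ := ((A.card - 3 : ℕ) : ℝ) with hE'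
  rcases le_or_gt E' L with hl | hl
  · refine le_trans (le_of_eq (sum_eq_zero fun t ht => ?_))
      (mul_nonneg (Nat.cast_nonneg _)
        (add_nonneg (mul_nonneg hgpos.le (hly A)) (by positivity)))
    rw [cutLyap, card_sdiff_pairs ht, if_pos hl]
  · set g' := Real.exp (-(K / 6 * (L / E'))) with hg'
    have e1 : ∀ t ∈ tri A, cutLyap K L (A \ pairs t) = g' * lyap (A \ pairs t) := fun t ht => by
      rw [cutLyap, card_sdiff_pairs ht, if_neg (not_le.2 hl)]
    rw [sum_congr rfl e1, ← mul_sum]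
    refine (mul_le_mul_of_nonneg_left hs (Real.exp_pos _).le).trans ?_
    rw [mul_left_comm]
    refine mul_le_mul_of_nonneg_left ?_ (Nat.cast_nonneg _)
    have hE'0 : 0 < E' := hL0.trans hl
    have heq : E' = (A.card : ℝ) - 3 := by
      rw [hE', Nat.cast_sub (by omega)]; norm_num
    have h4 : g' * (1 + K * |tw A| / A.card) ≤ g := by
      refine (mul_le_mul_of_nonneg_left ((add_comm _ _).le.trans (Real.add_one_le_exp _))
        (Real.exp_pos _).le).trans ?_
      rw [← Real.exp_add, hg, Real.exp_le_exp]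
      have h6 : K * |tw A| / A.card ≤ K / 6 * (3 * (L / ((A.card : ℝ) * A.card))) :=
        calc K * |tw A| / A.card ≤ K * (L / (2 * A.card)) / A.card := by gcongr
          _ = _ := by field_simp; ring
      have h7 : 3 * (L / ((A.card : ℝ) * A.card)) ≤ L / E' - L / A.card := by
        rw [div_sub_div _ _ hE'0.ne' hE.ne', show L * (A.card : ℝ) - E' * L = 3 * L by
          rw [heq]; ring, ← mul_div_assoc]
        gcongr
        linarith
      have h8 := mul_le_mul_of_nonneg_left h7 (show 0 ≤ K / 6 by positivity)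
      linarith
    have h9 : g' * (K / A.card) ≤ K / A.card :=
      mul_le_of_le_one_left (by positivity) (Real.exp_le_one_iff.2 (neg_nonpos.2 (by positivity)))
    have h10 := mul_le_mul_of_nonneg_right h4 (hly A)
    linarith

theorem tail_general {K : ℝ} (hK : 0 ≤ K) (hstep : LyapStep K)
    (hnn : ∀ y : ℝ, -1 ≤ y → 0 ≤ psi y) (A₀ : Finset (Finset V))
    (h2 : ∀ e ∈ A₀, e.card = 2) (hV : 0 < (Fintype.card V : ℝ)) {L : ℝ}
    (hL : 100 ≤ L) (hLn : (Fintype.card V : ℝ) ^ 3 ≤ 4 * L ^ 2) (hA₀ : L < A₀.card) :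
    probGT L A₀ ≤ Real.exp (K / 6) * (Fintype.card V : ℝ) ^ 3
      * (lyap A₀ + budget K L A₀.card) / L ^ 2 := by
  set N := (Fintype.card V : ℝ) ^ 3 with hN
  have hN0 : 0 < N := by positivity
  have hL0 : 0 < L := by linarith
  have hlow : ∀ A : Finset (Finset V), L < A.card →
      Real.exp (-(K / 6)) ≤ Real.exp (-(K / 6 * (L / A.card))) := fun A hA => by
    refine Real.exp_le_exp.2 (neg_le_neg ?_)
    refine mul_le_of_le_one_right (by positivity) ?_
    rw [div_le_one (hL0.trans hA)]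
    exact hA.le
  have hly : ∀ A : Finset (Finset V), 0 ≤ lyap A := fun A =>
    mul_nonneg (dd_nonneg A) (err_nonneg hnn A)
  have hfac : ∀ A : Finset (Finset V), Real.exp (-(K / 6 * (L / A.card))) ≤ 1 := fun A =>
    Real.exp_le_one_iff.2 (neg_nonpos.2 (by positivity))
  have key := tail_le A₀ (cutLyap K L) (C := K) (θ := Real.exp (-(K / 6)) * (L ^ 2 / N)) hK hL0
    (by positivity) hA₀
    (fun A _ => by
      unfold cutLyap; split_ifs
      · rfl
      · exact mul_nonneg (Real.exp_pos _).le (hly A))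
    (fun A _ hA he => ?_) (fun A hsub hA _ hz => ?_)
  · refine key.trans ?_
    have hc : cutLyap K L A₀ ≤ lyap A₀ := by
      unfold cutLyap; split_ifs
      · exact hly A₀
      · exact mul_le_of_le_one_left (hly A₀) (hfac A₀)
    rw [Real.exp_neg]
    refine (div_le_div_of_nonneg_right (add_le_add_left hc _) (by positivity)).trans (le_of_eq ?_)
    field_simp
  · rw [cutLyap, if_neg (not_le.2 hA)]
    refine mul_le_mul (hlow A hA) ?_ (by positivity) (Real.exp_pos _).le
    have ht : tw A = -1 := by simp [tw, he]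
    have h5 : 5 ≤ err A := by
      have := five_sq_le_err hnn A
      rw [ht] at this; linarith
    refine le_trans ?_ (mul_le_mul_of_nonneg_left h5 (dd_nonneg A))
    rw [dd, ← hN, div_mul_eq_mul_div]
    gcongr
    nlinarith
  · refine cut_step hK hstep hnn (fun e he => h2 e (hsub he)) hV hL hLn hA ?_
    by_contra hc
    rw [cutLyap, if_neg (not_le.2 hA)] at hz
    exact absurd hz (not_lt.2 (mul_le_mul (hlow A hA) (not_lt.1 hc) (by positivity)
      (Real.exp_pos _).le))

end General

/-- The edge set of the complete graph. -/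
abbrev complete (n : ℕ) : Finset (Finset (Fin n)) := (univ : Finset (Fin n)).powersetCard 2

theorem tri_complete (n : ℕ) : tri (complete n) = (univ : Finset (Fin n)).powersetCard 3 := by
  refine filter_true_of_mem fun t _ e he => ?_
  exact mem_powersetCard.2 ⟨subset_univ e, (mem_powersetCard.1 he).2⟩

theorem codeg_complete {n : ℕ} {e : Finset (Fin n)} (he : e ∈ complete n) :
    codeg (complete n) e = n - 2 := by
  have he2 := (mem_powersetCard.1 he).2
  have h : ((tri (complete n)).filter fun s => e ∈ pairs s)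
      = (univ \ e).image (fun v => insert v e) := by
    ext s
    simp only [tri_complete, pairs, mem_filter, mem_powersetCard, mem_image, mem_sdiff, mem_univ,
      subset_univ, true_and]
    constructor
    · rintro ⟨hs, hes, -⟩
      have h1 : (s \ e).card = 1 := by rw [card_sdiff_of_subset hes, hs, he2]
      obtain ⟨v, hv⟩ := card_eq_one.1 h1
      have hv' : v ∈ s \ e := by simp [hv]
      refine ⟨v, (mem_sdiff.1 hv').2, ?_⟩
      rw [← union_sdiff_of_subset hes, hv]; grind
    · rintro ⟨v, hv, rfl⟩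
      exact ⟨by rw [card_insert_of_notMem hv, he2], subset_insert v e, he2⟩
  rw [codeg, h, card_image_of_injOn, card_sdiff_of_subset (subset_univ e), card_univ,
    Fintype.card_fin, he2]
  intro v hv w hw hvw
  simp only [coe_sdiff, Set.mem_sdiff, mem_coe] at hv hw
  have : v ∈ insert w e := by
    rw [← show insert v e = insert w e from hvw]; exact mem_insert_self v e
  exact (mem_insert.1 this).resolve_right hv.2

theorem lyap_complete (hsmall : ∀ y : ℝ, |y| ≤ 1 / 8 → psi y ≤ 2 * y ^ 2) {n : ℕ} (hn : 4 ≤ n) :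
    lyap (complete n) ≤ 2 := by
  have hn' : (4 : ℝ) ≤ n := by exact_mod_cast hn
  have hcard : ((complete n).card : ℝ) = (n : ℝ) * ((n : ℝ) - 1) / 2 := by
    rw [card_powersetCard, card_univ, Fintype.card_fin, Nat.cast_choose_two]
  have hdd : dd (complete n) = ((n : ℝ) - 1) ^ 2 / n := by
    rw [dd, hcard, Fintype.card_fin]; field_simp; ring
  have hn1 : (0 : ℝ) < (n : ℝ) - 1 := by linarith
  have hdev : ∀ e ∈ complete n, dev (complete n) e = -1 / ((n : ℝ) - 1) ^ 2 := by
    intro e he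
    rw [dev, codeg_complete he, hdd, Nat.cast_sub (by omega)]
    push_cast; field_simp; ring
  have htw : tw (complete n) = -1 / ((n : ℝ) - 1) ^ 2 := by
    have hT : 3 * ((tri (complete n)).card : ℝ) = ((complete n).card : ℝ) * ((n : ℝ) - 2) := by
      rw [tri_complete, card_powersetCard, card_powersetCard, card_univ, Fintype.card_fin]
      have h := Nat.choose_succ_right_eq n 2
      have h' : ((n.choose 3 * 3 : ℕ) : ℝ) = ((n.choose 2 * (n - 2) : ℕ) : ℝ) := by rw [h]
      push_cast [Nat.cast_sub (show 2 ≤ n by omega)] at h'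
      linarith
    rw [tw, hT, hdd, hcard]
    field_simp; ring
  set u := -1 / ((n : ℝ) - 1) ^ 2 with hu
  have hu8 : |u| ≤ 1 / 8 := by
    rw [hu, neg_div, abs_neg, abs_of_nonneg (by positivity)]
    gcongr; nlinarith
  have hcpos : (0 : ℝ) < (complete n).card := by rw [hcard]; positivity
  have hmass : mass (complete n) / ((complete n).card : ℝ) ≤ 2 * u ^ 2 := by
    rw [div_le_iff₀ hcpos, mul_comm, ← nsmul_eq_mul]
    refine sum_le_card_nsmul _ _ _ fun e he => ?_
    rw [hdev e he]
    exact hsmall u hu8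
  have he : err (complete n) ≤ 7 * u ^ 2 := by unfold err; rw [htw]; linarith
  refine (mul_le_mul_of_nonneg_left he (dd_nonneg _)).trans ?_
  rw [hdd, hu, div_pow, neg_one_sq]
  field_simp
  nlinarith

/-- The tail of the leave at the scale `n ^ (3/2)` and above. -/
theorem tail_of_step {K : ℝ} (hK : 0 ≤ K) (hstep : LyapStep K)
    (hnn : ∀ y : ℝ, -1 ≤ y → 0 ≤ psi y) (hsmall : ∀ y : ℝ, |y| ≤ 1 / 8 → psi y ≤ 2 * y ^ 2)
    {n : ℕ} (hn : 3 ≤ n) {L : ℝ} (hL : 20 * (n : ℝ) ^ ((3 : ℝ) / 2) ≤ L) :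
    probGT L (complete n)
      ≤ Real.exp (K / 6) * (2 + 2 * K) * (n : ℝ) ^ 3 * Real.log n / L ^ 2 := by
  have hn' : (3 : ℝ) ≤ n := by exact_mod_cast hn
  have hlog : 1 ≤ Real.log (n : ℝ) := by
    rw [Real.le_log_iff_exp_le (by linarith)]
    have := Real.exp_one_lt_d9
    linarith
  set s := (n : ℝ) ^ ((3 : ℝ) / 2) with hsdef
  have hs2 : s ^ 2 = (n : ℝ) ^ 3 := by
    rw [hsdef, ← Real.rpow_natCast ((n : ℝ) ^ ((3 : ℝ) / 2)) 2, ← Real.rpow_mul (by linarith),
      show (3 : ℝ) / 2 * ((2 : ℕ) : ℝ) = ((3 : ℕ) : ℝ) by norm_num, Real.rpow_natCast]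
  have hs : (n : ℝ) ≤ s := by
    rw [hsdef]; exact Real.self_le_rpow_of_one_le (by linarith) (by norm_num)
  have hs5 : 5 ≤ s := by
    have : (3 : ℝ) ^ 3 ≤ (n : ℝ) ^ 3 := by gcongr
    nlinarith
  have hL100 : 100 ≤ L := by linarith
  rcases le_or_gt ((complete n).card : ℝ) L with hc | hc
  · rw [probGT_eq_zero hc]; positivity
  have hcard : ((complete n).card : ℝ) = (n : ℝ) * ((n : ℝ) - 1) / 2 := by
    rw [card_powersetCard, card_univ, Fintype.card_fin, Nat.cast_choose_two]
  have hn4 : 4 ≤ n := by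
    by_contra hc'
    have : (n : ℝ) ≤ 3 := by exact_mod_cast (by omega : n ≤ 3)
    rw [hcard] at hc; nlinarith
  have hratio : ((complete n).card : ℝ) / L ≤ n := by
    rw [div_le_iff₀ (by linarith), hcard]
    nlinarith
  have hb : budget K L (complete n).card ≤ 2 * K * Real.log n := by
    have h1 : Real.log (((complete n).card : ℝ) / L) ≤ Real.log n :=
      Real.log_le_log (div_pos (by linarith) (by linarith)) hratio
    have h2 : K / L ≤ K := div_le_self hK (by linarith)
    have h3 := mul_le_mul_of_nonneg_left h1 (show 0 ≤ K / 3 by positivity)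
    have h4 := mul_le_mul_of_nonneg_left hlog hK
    have h5 : 0 ≤ K * Real.log n := by positivity
    unfold budget; linarith
  have hN : (Fintype.card (Fin n) : ℝ) = n := by rw [Fintype.card_fin]
  have h := tail_general hK hstep hnn (complete n) (fun e he => (mem_powersetCard.1 he).2)
    (by rw [hN]; linarith) hL100 (by rw [hN, ← hs2]; nlinarith) hc
  rw [hN] at h
  refine h.trans ?_
  have hsum : lyap (complete n) + budget K L (complete n).card ≤ (2 + 2 * K) * Real.log n := by
    have := lyap_complete hsmall hn4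
    nlinarith
  refine (div_le_div_of_nonneg_right (mul_le_mul_of_nonneg_left hsum (by positivity))
    (sq_nonneg L)).trans (le_of_eq ?_)
  ring

/-- The mean and the tail of the leave, from the one-step drift bound. -/
theorem upper_of_step (hstep : ∃ K : ℝ, 0 ≤ K ∧ LyapStep K)
    (hnn : ∀ y : ℝ, -1 ≤ y → 0 ≤ psi y) (hsmall : ∀ y : ℝ, |y| ≤ 1 / 8 → psi y ≤ 2 * y ^ 2) :
    ∃ C : ℝ, ∀ n : ℕ, 3 ≤ n →
      expLeave (complete n) ≤ C * (n : ℝ) ^ ((3 : ℝ) / 2) * Real.sqrt (Real.log n) ∧
      ∀ M : ℝ, 20 ≤ M →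
        probGT (M * ((n : ℝ) ^ ((3 : ℝ) / 2) * Real.sqrt (Real.log n))) (complete n)
          ≤ C / M ^ 2 := by
  obtain ⟨K, hK, hK'⟩ := hstep
  set C₁ := Real.exp (K / 6) * (2 + 2 * K) with hC₁
  have hC₁0 : 0 ≤ C₁ := by positivity
  refine ⟨22 + C₁, fun n hn => ?_⟩
  have hn' : (3 : ℝ) ≤ n := by exact_mod_cast hn
  have hlog : 1 ≤ Real.log (n : ℝ) := by
    rw [Real.le_log_iff_exp_le (by linarith)]
    have := Real.exp_one_lt_d9
    linarith
  set s := (n : ℝ) ^ ((3 : ℝ) / 2) with hsdef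
  set r := Real.sqrt (Real.log n) with hrdef
  have hr : 1 ≤ r := Real.one_le_sqrt.2 hlog
  have hr2 : r ^ 2 = Real.log n := Real.sq_sqrt (by linarith)
  have hs2 : s ^ 2 = (n : ℝ) ^ 3 := by
    rw [hsdef, ← Real.rpow_natCast ((n : ℝ) ^ ((3 : ℝ) / 2)) 2, ← Real.rpow_mul (by linarith),
      show (3 : ℝ) / 2 * ((2 : ℕ) : ℝ) = ((3 : ℕ) : ℝ) by norm_num, Real.rpow_natCast]
  have hs : 1 ≤ s := Real.one_le_rpow (by linarith) (by norm_num)
  have htail : ∀ L : ℝ, 20 * s ≤ L → probGT L (complete n) ≤ C₁ * (s * r) ^ 2 / L ^ 2 := by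
    intro L hL
    refine (tail_of_step hK hK' hnn hsmall hn hL).trans (le_of_eq ?_)
    rw [mul_pow, hr2, hs2, hC₁]; ring
  have hsr : 1 ≤ s * r := one_le_mul_of_one_le_of_one_le hs hr
  have hge : s ≤ s * r := le_mul_of_one_le_right (by linarith) hr
  refine ⟨?_, fun M hM => ?_⟩
  · have h := expLeave_le_of_tail (complete n) (B := C₁ * (s * r) ^ 2) (L₀ := 20 * (s * r))
      (by positivity) (by positivity) (fun k hk _ => htail k (by linarith))
    have e : C₁ * (s * r) ^ 2 / (20 * (s * r)) = C₁ * (s * r) / 20 := by field_simp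
    rw [e] at h
    have h0 : 0 ≤ C₁ * (s * r) := by positivity
    refine h.trans ?_
    rw [mul_assoc, add_mul]
    linarith
  · refine (htail _ ?_).trans ?_
    · nlinarith
    · rw [mul_pow M, div_le_div_iff₀ (by positivity) (by positivity)]
      have : 0 ≤ (s * r) ^ 2 * M ^ 2 := by positivity
      nlinarith

/-- The mean and the tail of the leave, given only the one-step drift bound. -/
theorem leave_upper_of_step (hstep : ∃ K : ℝ, 0 ≤ K ∧ LyapStep K) :
    ∃ C : ℝ, ∀ n : ℕ, 3 ≤ n →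
      expLeave (complete n) ≤ C * (n : ℝ) ^ ((3 : ℝ) / 2) * Real.sqrt (Real.log n) ∧
      ∀ M : ℝ, 20 ≤ M →
        probGT (M * ((n : ℝ) ^ ((3 : ℝ) / 2) * Real.sqrt (Real.log n))) (complete n)
          ≤ C / M ^ 2 :=
  upper_of_step hstep (fun y _ => psi_nonneg y) (fun _ h => psi_small h)

end Vale.Agent.P046.Track
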