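import Vale.Agent.P046.Track.Recursion
import Vale.Agent.P046.Collapse

/-!
From the tracked state to a lower bound for the leave.
-/

namespace Vale.Agent.P046.Track

open Finset

/-- The bound on the potential at a tracked state. -/
def SparseBound : Prop :=
  ∀ (V : Type) [Fintype V] [DecidableEq V] (A : Finset (Finset V)) (M : ℕ),
    16 ≤ dd A → err A ≤ 1 / 64 → (A.card : ℝ) / (20 * Real.sqrt (dd A)) ≤ netPot M A

section General

variable {V : Type} [Fintype V] [DecidableEq V]

theorem probLT_le_one (L : ℝ) (A : Finset (Finset V)) : probLT L A ≤ 1 :=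
  procVal_le _ (fun _ => 1) A (fun B _ _ => by split_ifs <;> norm_num)
    (fun B _ _ => by simp)

theorem probLT_mono {L L' : ℝ} (h : L ≤ L') :
    ∀ A : Finset (Finset V), probLT L A ≤ probLT L' A := by
  intro A
  induction A using Finset.strongInduction with
  | H A ih =>
    unfold probLT at ih ⊢
    by_cases he : tri A = ∅
    · rw [procVal_of_empty _ he, procVal_of_empty _ he]
      split_ifs <;> linarith
    · rw [procVal_of_ne _ he, procVal_of_ne _ he]
      gcongr with t ht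
      exact ih _ (sdiff_pairs_ssubset ht)

theorem expLeave_ge (L : ℝ) :
    ∀ A : Finset (Finset V), L * (1 - probLT L A) ≤ expLeave A := by
  intro A
  induction A using Finset.strongInduction with
  | H A ih =>
    simp only [expLeave_eq_procVal] at ih ⊢
    unfold probLT at ih ⊢
    by_cases he : tri A = ∅
    · rw [procVal_of_empty _ he, procVal_of_empty _ he]
      split_ifs with h
      · simp
      · linarith [not_lt.1 h]
    · have hT : (0 : ℝ) < ((tri A).card : ℝ) := by
        exact_mod_cast card_pos.2 (nonempty_iff_ne_empty.2 he)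
      rw [procVal_of_ne _ he, procVal_of_ne _ he, one_sub_div hT.ne', mul_div_assoc']
      gcongr
      have h := sum_le_sum fun t (ht : t ∈ tri A) => ih _ (sdiff_pairs_ssubset ht)
      simp only [mul_sub, mul_one, sum_sub_distrib, sum_const, nsmul_eq_mul, ← mul_sum] at h ⊢
      linarith

/-- The edges in more than `M` triangles. -/
def heavy (M : ℕ) (A : Finset (Finset V)) : Finset (Finset V) :=
  A.filter fun e => M < codeg A e

theorem codeg_le_of_heavy_empty {M : ℕ} {A : Finset (Finset V)} (h : heavy M A = ∅)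
    (e : Finset V) : codeg A e ≤ M := by
  by_contra hc
  have hpos : 0 < codeg A e := by omega
  obtain ⟨s, hs⟩ := card_pos.1 hpos
  obtain ⟨hs1, hs2⟩ := mem_filter.1 hs
  have : e ∈ heavy M A := mem_filter.2 ⟨tri_sub hs1 hs2, by omega⟩
  rw [h] at this
  exact absurd this (notMem_empty e)

theorem heavy_sdiff_sub (M : ℕ) (A : Finset (Finset V)) (t : Finset V) :
    heavy M (A \ pairs t) ⊆ heavy M A \ pairs t := fun e he => by
  obtain ⟨he1, he2⟩ := mem_filter.1 he
  exact mem_sdiff.2 ⟨mem_filter.2 ⟨(mem_sdiff.1 he1).1,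
    he2.trans_le (codeg_mono sdiff_subset e)⟩, (mem_sdiff.1 he1).2⟩

/-- A heavy edge survives a removal with probability at most `1 - M / T`. -/
theorem heavy_step (M : ℕ) (A : Finset (Finset V)) {lam φ φ' : ℝ} (hl : 0 ≤ lam)
    (hφ : φ ≤ φ' + 3) (hrate : φ ≤ φ' ∨ ((tri A).card : ℝ) * (3 * lam) ≤ (M : ℝ) + 1) :
    ∑ t ∈ tri A, ((heavy M (A \ pairs t)).card : ℝ) * Real.exp (-(lam * φ'))
      ≤ (tri A).card * ((heavy M A).card * Real.exp (-(lam * φ))) := by
  rw [← sum_mul]
  rcases hrate with h | h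
  · rw [← mul_assoc]
    refine mul_le_mul ?_ (Real.exp_le_exp.2 (by nlinarith)) (Real.exp_pos _).le (by positivity)
    rw [← nsmul_eq_mul]
    exact sum_le_card_nsmul _ _ _ fun t _ => by
      exact_mod_cast (card_le_card (heavy_sdiff_sub M A t)).trans (card_le_card sdiff_subset)
  · have hn : ∑ t ∈ tri A, (heavy M (A \ pairs t)).card + (heavy M A).card * (M + 1)
        ≤ (tri A).card * (heavy M A).card := by
      have h1 : ∑ t ∈ tri A, (heavy M A \ pairs t).card + ∑ t ∈ tri A, (heavy M A ∩ pairs t).card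
          = (tri A).card * (heavy M A).card := by
        rw [← sum_add_distrib, sum_congr rfl fun t _ => card_sdiff_add_card_inter _ _, sum_const,
          smul_eq_mul]
      have h2 : (heavy M A).card * (M + 1) ≤ ∑ t ∈ tri A, (heavy M A ∩ pairs t).card := by
        have e : ∀ t ∈ tri A, (heavy M A ∩ pairs t).card
            = ∑ e ∈ heavy M A, if e ∈ pairs t then 1 else 0 := fun t _ => by
          rw [← filter_mem_eq_inter, card_filter]
        rw [sum_congr rfl e, sum_comm, ← smul_eq_mul]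
        refine card_nsmul_le_sum _ _ _ fun e he => ?_
        rw [← card_filter]
        exact (mem_filter.1 he).2
      have h3 := sum_le_sum fun t (_ : t ∈ tri A) => card_le_card (heavy_sdiff_sub M A t)
      omega
    have hn' : (∑ t ∈ tri A, ((heavy M (A \ pairs t)).card : ℝ))
        + (heavy M A).card * ((M : ℝ) + 1) ≤ (tri A).card * (heavy M A).card := by
      exact_mod_cast hn
    set S := ∑ t ∈ tri A, ((heavy M (A \ pairs t)).card : ℝ) with hS
    have hexp : Real.exp (-(lam * φ)) ≥ Real.exp (-(lam * φ')) * (1 - 3 * lam) := by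
      have h1 : Real.exp (-(lam * φ')) * Real.exp (-(3 * lam)) ≤ Real.exp (-(lam * φ)) := by
        rw [← Real.exp_add, Real.exp_le_exp]; nlinarith
      refine le_trans (mul_le_mul_of_nonneg_left ?_ (Real.exp_pos _).le) h1
      linarith [Real.add_one_le_exp (-(3 * lam))]
    have hH : (0 : ℝ) ≤ (heavy M A).card := Nat.cast_nonneg _
    have h4 := mul_le_mul_of_nonneg_left h hH
    have h5 : S ≤ (tri A).card * (heavy M A).card * (1 - 3 * lam) := by nlinarith
    refine (mul_le_mul_of_nonneg_right h5 (Real.exp_pos _).le).trans ?_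
    have h6 := mul_le_mul_of_nonneg_left hexp
      (show (0 : ℝ) ≤ (tri A).card * (heavy M A).card by positivity)
    linarith

/-- The remaining life of the heavy-edge count. -/
noncomputable def life (L : ℝ) (E : ℕ) : ℝ := max 0 (min (E : ℝ) (4 * L) - 2 * L)

theorem life_step (L : ℝ) (E : ℕ) : life L E ≤ life L (E - 3) + 3 := by
  have h : (E : ℝ) ≤ ((E - 3 : ℕ) : ℝ) + 3 := by
    exact_mod_cast (by omega : E ≤ E - 3 + 3)
  have h1 : min (E : ℝ) (4 * L) ≤ min ((E - 3 : ℕ) : ℝ) (4 * L) + 3 := by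
    rcases min_cases ((E - 3 : ℕ) : ℝ) (4 * L) with ⟨e, _⟩ | ⟨e, _⟩ <;> rw [e]
    · linarith [min_le_left (E : ℝ) (4 * L)]
    · linarith [min_le_right (E : ℝ) (4 * L)]
  unfold life
  have := le_max_right 0 (min ((E - 3 : ℕ) : ℝ) (4 * L) - 2 * L)
  have := le_max_left 0 (min ((E - 3 : ℕ) : ℝ) (4 * L) - 2 * L)
  rw [max_le_iff]
  constructor <;> linarith

theorem tri_card_le {A : Finset (Finset V)} (hpos : 0 < (A.card : ℝ) * dd A)
    (hw : |tw A| ≤ 1 / 2) : ((tri A).card : ℝ) ≤ (A.card : ℝ) * dd A / 2 := by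
  have h : 3 * ((tri A).card : ℝ) / ((A.card : ℝ) * dd A) ≤ 3 / 2 := by
    have := (abs_le.1 hw).2
    unfold tw at this; linarith
  rw [div_le_iff₀ hpos] at h
  linarith

/-- The count below which the second stage ends with small probability. -/
noncomputable def endLevel (N : ℝ) (M : ℕ) : ℝ := Real.sqrt N / 80 / (1 + 12 / 5 * (M : ℝ))

/-- The threshold of the damped Lyapunov function. -/
noncomputable def threshold (K L N : ℝ) : ℝ := Real.exp (-(K / 6)) * (L ^ 2 / (16 * N))

/-- The tracking part of the majorant. -/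
noncomputable def trackPart (K L N : ℝ) (A : Finset (Finset V)) : ℝ :=
  (cutLyap K L A + budget K L A.card) / threshold K L N

/-- The heavy-edge part of the majorant. -/
noncomputable def heavyPart (lam L : ℝ) (M : ℕ) (A : Finset (Finset V)) : ℝ :=
  ((heavy M A).card : ℝ) * Real.exp (-(lam * life L A.card))

theorem threshold_pos (K : ℝ) {L N : ℝ} (hL : 0 < L) (hN : 0 < N) : 0 < threshold K L N := by
  unfold threshold; positivity

theorem cutLyap_nonneg (hnn : ∀ y : ℝ, -1 ≤ y → 0 ≤ psi y) (K L : ℝ) (A : Finset (Finset V)) :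
    0 ≤ cutLyap K L A := by
  unfold cutLyap; split_ifs
  · rfl
  · exact mul_nonneg (Real.exp_pos _).le (mul_nonneg (dd_nonneg A) (err_nonneg hnn A))

theorem heavyPart_nonneg (lam L : ℝ) (M : ℕ) (A : Finset (Finset V)) :
    0 ≤ heavyPart lam L M A := by
  unfold heavyPart; positivity

theorem budget_nonneg {K L : ℝ} (hK : 0 ≤ K) (hL : 0 < L) {E : ℕ} (hE : L < E) :
    0 ≤ budget K L E := by
  have h1 : (0 : ℝ) ≤ Real.log ((E : ℝ) / L) :=
    Real.log_nonneg (by rw [le_div_iff₀ hL]; linarith)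
  unfold budget; positivity

theorem trackPart_nonneg (hnn : ∀ y : ℝ, -1 ≤ y → 0 ≤ psi y) {K L N : ℝ} (hK : 0 ≤ K)
    (hL : 0 < L) (hN : 0 < N) {A : Finset (Finset V)} (hA : L < A.card) :
    0 ≤ trackPart K L N A :=
  div_nonneg (add_nonneg (cutLyap_nonneg hnn K L A) (budget_nonneg hK hL hA))
    (threshold_pos K hL hN).le

theorem one_le_trackPart {K L N : ℝ} (hK : 0 ≤ K) (hL : 0 < L) (hN : 0 < N)
    {A : Finset (Finset V)} (hA : L < A.card) (h : threshold K L N ≤ cutLyap K L A) :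
    1 ≤ trackPart K L N A := by
  unfold trackPart
  rw [le_div_iff₀ (threshold_pos K hL hN), one_mul]
  linarith [budget_nonneg hK hL hA]

/-- A state below the threshold is on track. -/
theorem on_track {K : ℝ} (hK : 0 ≤ K) {A : Finset (Finset V)} {L : ℝ}
    (hV : 0 < (Fintype.card V : ℝ)) (hL : 0 < L)
    (hLn : 4 * (Fintype.card V : ℝ) ^ 3 ≤ L ^ 2) (hA : L < A.card)
    (hz : cutLyap K L A < threshold K L ((Fintype.card V : ℝ) ^ 3)) :
    16 ≤ dd A ∧ err A ≤ 1 / 64 ∧ lyap A < L ^ 2 / (Fintype.card V : ℝ) ^ 3 := by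
  set N := (Fintype.card V : ℝ) ^ 3 with hN
  have hN0 : 0 < N := by positivity
  have hE : (0 : ℝ) < A.card := hL.trans hA
  have hD : 16 ≤ dd A := by
    rw [dd, ← hN, le_div_iff₀ hN0]; nlinarith
  rw [cutLyap, if_neg (not_le.2 hA), threshold] at hz
  have h1 : lyap A < L ^ 2 / (16 * N) := by
    by_contra hc
    refine absurd hz (not_lt.2 (mul_le_mul ?_ (not_lt.1 hc) (by positivity) (Real.exp_pos _).le))
    refine Real.exp_le_exp.2 (neg_le_neg (mul_le_of_le_one_right (by positivity) ?_))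
    rw [div_le_one hE]; exact hA.le
  refine ⟨hD, ?_, h1.trans_le ?_⟩
  · have h2 : err A * (64 * (A.card : ℝ) ^ 2) < L ^ 2 := by
      rw [lyap, dd, ← hN, lt_div_iff₀ (by positivity)] at h1
      refine lt_of_le_of_lt (le_of_eq ?_) h1
      field_simp; ring
    by_contra hc
    nlinarith [mul_lt_mul_of_pos_right (not_le.1 hc)
      (show 0 < 64 * (A.card : ℝ) ^ 2 by positivity)]
  · gcongr
    linarith

/-- A state with no triangle above `L` is beyond the threshold. -/
theorem stuck_track (hnn : ∀ y : ℝ, -1 ≤ y → 0 ≤ psi y) {K : ℝ} (hK : 0 ≤ K)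
    {A : Finset (Finset V)} {L : ℝ} (hV : 0 < (Fintype.card V : ℝ)) (hL : 0 < L)
    (hA : L < A.card) (he : tri A = ∅) :
    threshold K L ((Fintype.card V : ℝ) ^ 3) ≤ cutLyap K L A := by
  set N := (Fintype.card V : ℝ) ^ 3 with hN
  have hN0 : 0 < N := by positivity
  have hE : (0 : ℝ) < A.card := hL.trans hA
  rw [cutLyap, if_neg (not_le.2 hA), threshold]
  have h5 : 5 ≤ err A := by
    have := five_sq_le_err hnn A
    rw [show tw A = -1 by simp [tw, he]] at this; linarith
  refine mul_le_mul (Real.exp_le_exp.2 (neg_le_neg ?_)) ?_ (by positivity) (Real.exp_pos _).le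
  · refine mul_le_of_le_one_right (by positivity) ?_
    rw [div_le_one hE]; exact hA.le
  refine le_trans ?_ (mul_le_mul_of_nonneg_left h5 (dd_nonneg A))
  rw [dd, ← hN, div_mul_eq_mul_div, div_le_div_iff₀ (by positivity) hN0]
  have h : L ^ 2 * N ≤ (A.card : ℝ) ^ 2 * N := by gcongr
  have : 0 ≤ (A.card : ℝ) ^ 2 * N := by positivity
  linarith

/-- The second stage from a tracked state without heavy edges. -/
theorem second_stage (hsp : SparseBound) {A : Finset (Finset V)} {M : ℕ} {L : ℝ}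
    (hV : 0 < (Fintype.card V : ℝ)) (hA : 0 < (A.card : ℝ)) (hA2 : (A.card : ℝ) ≤ 2 * L)
    (hD : 16 ≤ dd A) (herr : err A ≤ 1 / 64) (hh : heavy M A = ∅) :
    probLT (endLevel ((Fintype.card V : ℝ) ^ 3) M) A
      ≤ 32000000 * (M : ℝ) ^ 4 * L / (Fintype.card V : ℝ) ^ 3 := by
  set N := (Fintype.card V : ℝ) ^ 3 with hN
  have hN0 : 0 < N := by positivity
  have hsp' := hsp V A M hD herr
  have hED : (A.card : ℝ) / (20 * Real.sqrt (dd A)) = Real.sqrt N / 40 := by
    rw [dd, ← hN, Real.sqrt_div (by positivity), show 4 * (A.card : ℝ) ^ 2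
      = (2 * (A.card : ℝ)) ^ 2 by ring, Real.sqrt_sq (by positivity)]
    have := Real.sqrt_pos.2 hN0
    field_simp; ring
  have h := lower_tail (a := Real.sqrt N / 80) (codeg_le_of_heavy_empty hh) (by positivity)
    (by linarith)
  refine (le_of_eq (by rw [endLevel])).trans (h.trans ?_)
  rw [div_pow, Real.sq_sqrt hN0.le, div_div_eq_mul_div]
  refine div_le_div_of_nonneg_right ?_ hN0.le
  have := mul_le_mul_of_nonneg_left hA2
    (show (0 : ℝ) ≤ 2500 * (M : ℝ) ^ 4 * 80 ^ 2 by positivity)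
  linarith

/-- One step of the tracking part. -/
theorem trackPart_step {K : ℝ} (hK : 0 ≤ K) (hstep : LyapStep K)
    (hnn : ∀ y : ℝ, -1 ≤ y → 0 ≤ psi y) {A : Finset (Finset V)} (h2 : ∀ e ∈ A, e.card = 2)
    (hV : 0 < (Fintype.card V : ℝ)) {L : ℝ} (hL : 100 ≤ L)
    (hLn : 4 * (Fintype.card V : ℝ) ^ 3 ≤ L ^ 2) (hA : L < A.card)
    (hz : lyap A < L ^ 2 / (Fintype.card V : ℝ) ^ 3) :
    ∑ t ∈ tri A, trackPart K L ((Fintype.card V : ℝ) ^ 3) (A \ pairs t)
      ≤ (tri A).card * trackPart K L ((Fintype.card V : ℝ) ^ 3) A := by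
  set N := (Fintype.card V : ℝ) ^ 3 with hN
  have hN0 : 0 < N := by positivity
  have hL0 : 0 < L := by linarith
  have hE : 3 < A.card := by
    have : ((3 : ℕ) : ℝ) < A.card := by push_cast; linarith
    exact_mod_cast this
  unfold trackPart
  rw [← sum_div, mul_div_assoc']
  refine div_le_div_of_nonneg_right ?_ (threshold_pos K hL0 hN0).le
  have h := cut_step hK hstep hnn h2 hV hL (by rw [← hN]; nlinarith) hA hz
  have hb : ∑ t ∈ tri A, budget K L (A \ pairs t).card
      ≤ (tri A).card * (budget K L A.card - K / A.card) := by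
    rw [← nsmul_eq_mul]
    refine sum_le_card_nsmul _ _ _ fun t ht => ?_
    rw [card_sdiff_pairs ht]
    linarith [budget_step hK hL0 hE]
  rw [sum_add_distrib]
  linarith

/-- One step of the heavy-edge part. -/
theorem heavyPart_step (hnn : ∀ y : ℝ, -1 ≤ y → 0 ≤ psi y) {A : Finset (Finset V)} {L lam : ℝ}
    {M : ℕ} (hV : 0 < (Fintype.card V : ℝ)) (hL : 100 ≤ L) (hlam : 0 ≤ lam)
    (hM : 3 * lam * (250 * L ^ 3 / (Fintype.card V : ℝ) ^ 3) ≤ M) (hA : L < A.card)
    (herr : err A ≤ 1 / 64) :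
    ∑ t ∈ tri A, heavyPart lam L M (A \ pairs t) ≤ (tri A).card * heavyPart lam L M A := by
  set N := (Fintype.card V : ℝ) ^ 3 with hN
  have hN0 : 0 < N := by positivity
  have hE3 : 3 < A.card := by
    have : ((3 : ℕ) : ℝ) < A.card := by push_cast; linarith
    exact_mod_cast this
  unfold heavyPart
  have e1 : ∀ t ∈ tri A, ((heavy M (A \ pairs t)).card : ℝ)
      * Real.exp (-(lam * life L (A \ pairs t).card))
      = (heavy M (A \ pairs t)).card * Real.exp (-(lam * life L (A.card - 3))) :=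
    fun t ht => by rw [card_sdiff_pairs ht]
  rw [sum_congr rfl e1]
  refine heavy_step M A hlam (life_step L A.card) ?_
  rcases le_or_gt (4 * L) ((A.card - 3 : ℕ) : ℝ) with h4 | h4
  · left
    have : ((A.card - 3 : ℕ) : ℝ) ≤ A.card := by exact_mod_cast Nat.sub_le _ _
    unfold life
    rw [min_eq_right h4, min_eq_right (by linarith)]
  · right
    have hE : (0 : ℝ) < A.card := by linarith
    have hE5 : (A.card : ℝ) ≤ 5 * L := by
      rw [Nat.cast_sub (by omega)] at h4; push_cast at h4; linarith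
    have hw : |tw A| ≤ 1 / 2 := by
      have := five_sq_le_err hnn A
      rw [abs_le]; constructor <;> nlinarith
    have hdd : 0 < dd A := by rw [dd, ← hN]; positivity
    have hT := tri_card_le (A := A) (mul_pos hE hdd) hw
    have hT' : (A.card : ℝ) * dd A / 2 ≤ 250 * L ^ 3 / N :=
      calc (A.card : ℝ) * dd A / 2 = 2 * (A.card : ℝ) ^ 3 / N := by rw [dd, ← hN]; ring
        _ ≤ 2 * (5 * L) ^ 3 / N := by gcongr
        _ = _ := by ring
    have h8 := mul_le_mul_of_nonneg_left (hT.trans hT') (show 0 ≤ 3 * lam by positivity)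
    linarith

/-- Tracking, the disappearance of heavy edges and no collapse, in one supermartingale. -/
theorem lower_general {K : ℝ} (hK : 0 ≤ K) (hstep : LyapStep K)
    (hnn : ∀ y : ℝ, -1 ≤ y → 0 ≤ psi y) (hsp : SparseBound) (A₀ : Finset (Finset V))
    (h2 : ∀ e ∈ A₀, e.card = 2) (hV : 0 < (Fintype.card V : ℝ)) {L lam : ℝ} {M : ℕ}
    (hL : 100 ≤ L) (hLn : 4 * (Fintype.card V : ℝ) ^ 3 ≤ L ^ 2) (hlam : 0 ≤ lam)
    (hM : 3 * lam * (250 * L ^ 3 / (Fintype.card V : ℝ) ^ 3) ≤ M)
    (hA₀ : 4 * L ≤ A₀.card) :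
    probLT (endLevel ((Fintype.card V : ℝ) ^ 3) M) A₀
      ≤ 32000000 * (M : ℝ) ^ 4 * L / (Fintype.card V : ℝ) ^ 3
        + 16 * Real.exp (K / 6) * (Fintype.card V : ℝ) ^ 3
          * (lyap A₀ + budget K L A₀.card) / L ^ 2
        + (A₀.card : ℝ) * Real.exp (-(lam * (2 * L))) := by
  set N := (Fintype.card V : ℝ) ^ 3 with hN
  have hN0 : 0 < N := by positivity
  have hL0 : 0 < L := by linarith
  set g : Finset (Finset V) → ℝ := fun B =>
    if (B.card : ℝ) < endLevel N M then 1 else 0 with hg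
  set ε := 32000000 * (M : ℝ) ^ 4 * L / N with hεdef
  have hε : 0 ≤ ε := by positivity
  let B' : Finset (Finset V) → ℝ := fun A => ε + trackPart K L N A + heavyPart lam L M A
  have hB1 : ∀ A : Finset (Finset V), L < A.card → threshold K L N ≤ cutLyap K L A → 1 ≤ B' A :=
    fun A hA h => by
      have := one_le_trackPart hK hL0 hN0 hA h
      have := heavyPart_nonneg lam L M A
      simp only [B']; linarith
  have hsecond : ∀ A : Finset (Finset V), L < A.card → (A.card : ℝ) ≤ 2 * L →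
      procVal g A ≤ B' A := by
    intro A hA hA2
    have hp1 : procVal g A ≤ 1 := probLT_le_one _ A
    rcases le_or_gt (threshold K L N) (cutLyap K L A) with hz | hz
    · exact hp1.trans (hB1 A hA hz)
    have hU := heavyPart_nonneg lam L M A
    have hZ := trackPart_nonneg hnn hK hL0 hN0 hA
    rcases (heavy M A).eq_empty_or_nonempty with hh | hh
    · obtain ⟨hD, herr, -⟩ := on_track hK hV hL0 hLn hA hz
      refine (second_stage hsp hV (hL0.trans hA) hA2 hD herr hh).trans ?_
      simp only [B']; linarith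
    · refine hp1.trans ?_
      have : 1 ≤ heavyPart lam L M A := by
        have hl : life L A.card = 0 := by
          rw [life, max_eq_left]; linarith [min_le_left (A.card : ℝ) (4 * L)]
        rw [heavyPart, hl, mul_zero, neg_zero, Real.exp_zero, mul_one]
        exact_mod_cast card_pos.2 hh
      simp only [B']; linarith
  let W : Finset (Finset V) → ℝ := fun A =>
    if (A.card : ℝ) ≤ 2 * L then procVal g A else min 1 (B' A)
  have hW1 : ∀ A, W A ≤ 1 := fun A => by
    simp only [W]; split_ifs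
    · exact probLT_le_one _ A
    · exact min_le_left _ _
  have key : procVal g A₀ ≤ W A₀ := by
    refine procVal_le g W A₀ (fun A _ he => ?_) (fun A hsub hne => ?_)
    · simp only [W]
      split_ifs with hl
      · rw [procVal_of_empty g he]
      · have h1 : g A ≤ 1 := by simp only [hg]; split_ifs <;> norm_num
        have hA : L < A.card := by linarith [not_le.1 hl]
        exact le_min h1 (h1.trans (hB1 A hA (stuck_track hnn hK hV hL0 hA he)))
    · rcases le_or_gt (A.card : ℝ) (2 * L) with hl | hl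
      · simp only [W]
        rw [if_pos hl, procVal_of_ne g hne, mul_div_cancel₀]
        · refine le_of_eq (sum_congr rfl fun t ht => if_pos (le_trans ?_ hl))
          exact_mod_cast card_le_card sdiff_subset
        · exact_mod_cast (card_pos.2 (nonempty_iff_ne_empty.2 hne)).ne'
      · have e : W A = min 1 (B' A) := if_neg (not_le.2 hl)
        rw [e, mul_min_of_nonneg _ _ (Nat.cast_nonneg _), mul_one]
        refine le_min (le_trans (sum_le_sum fun t _ => hW1 _) (by simp)) ?_
        have hA : L < A.card := by linarith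
        rcases le_or_gt (threshold K L N) (cutLyap K L A) with hz | hz
        · refine le_trans (sum_le_sum fun t _ => hW1 _) ?_
          rw [sum_const, nsmul_eq_mul, mul_one]
          exact le_mul_of_one_le_right (Nat.cast_nonneg _) (hB1 A hA hz)
        obtain ⟨hD, herr, hz'⟩ := on_track hK hV hL0 hLn hA hz
        have hc : ∀ t ∈ tri A, W (A \ pairs t) ≤ B' (A \ pairs t) := by
          intro t ht
          simp only [W]
          split_ifs with hl'
          · refine hsecond _ ?_ hl'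
            have hE : 3 ≤ A.card := by
              have : ((3 : ℕ) : ℝ) ≤ A.card := by push_cast; linarith
              exact_mod_cast this
            rw [card_sdiff_pairs ht, Nat.cast_sub hE]; push_cast; linarith
          · exact min_le_right _ _
        refine (sum_le_sum hc).trans ?_
        simp only [B']
        rw [sum_add_distrib, sum_add_distrib, sum_const, nsmul_eq_mul, mul_add, mul_add]
        exact add_le_add
          (add_le_add le_rfl (trackPart_step hK hstep hnn (fun e he => h2 e (hsub he)) hV hL hLn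
            hA hz'))
          (heavyPart_step hnn hV hL hlam hM hA herr)
  refine key.trans ?_
  have hA : ¬ (A₀.card : ℝ) ≤ 2 * L := by linarith
  simp only [W]
  rw [if_neg hA]
  refine (min_le_right _ _).trans (add_le_add (add_le_add le_rfl ?_) ?_)
  · have hc : cutLyap K L A₀ ≤ lyap A₀ := by
      have hly : 0 ≤ lyap A₀ := mul_nonneg (dd_nonneg A₀) (err_nonneg hnn A₀)
      unfold cutLyap; split_ifs
      · exact hly
      · exact mul_le_of_le_one_left hly (Real.exp_le_one_iff.2 (neg_nonpos.2 (by positivity)))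
    refine (div_le_div_of_nonneg_right (add_le_add_left hc _)
      (threshold_pos K hL0 hN0).le).trans (le_of_eq ?_)
    rw [threshold, Real.exp_neg]
    field_simp
  · have hl : life L A₀.card = 2 * L := by
      rw [life, min_eq_right hA₀, max_eq_right] <;> linarith
    rw [heavyPart, hl]
    gcongr
    exact filter_subset _ _

end General

theorem log_pow_le {x : ℝ} (hx : 1 ≤ x) (k : ℕ) (hk : 0 < k) :
    Real.log x ^ k ≤ (k : ℝ) ^ k * x := by
  have hk' : (0 : ℝ) < k := by exact_mod_cast hk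
  have h := Real.log_le_rpow_div (x := x) (by linarith) (show (0 : ℝ) < 1 / k by positivity)
  calc Real.log x ^ k ≤ (x ^ (1 / (k : ℝ)) / (1 / (k : ℝ))) ^ k :=
        pow_le_pow_left₀ (Real.log_nonneg hx) h k
    _ = (k : ℝ) ^ k * x := by
        rw [div_div_eq_mul_div, div_one, mul_pow, ← Real.rpow_natCast (x ^ (1 / (k : ℝ))) k,
          ← Real.rpow_mul (by linarith), one_div_mul_cancel hk'.ne', Real.rpow_one, mul_comm]

/-- The second-stage error is below `1 / Λ ^ 2`. -/
theorem eps_bound {c a D M L l s Λ : ℝ} (hc : 0 ≤ c) (hM0 : 0 ≤ M) (hL0 : 0 ≤ L)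
    (hs : 0 < s) (hM : M ≤ a * l ^ 4) (hL : L ≤ l ^ 2 * s) (hΛl : Λ ≤ l)
    (hl : l ^ 20 ≤ D * s) (hΛ0 : 0 < Λ) :
    c * M ^ 4 * L / s ^ 2 ≤ c * a ^ 4 * D / Λ ^ 2 := by
  rw [div_le_div_iff₀ (by positivity) (by positivity)]
  calc c * M ^ 4 * L * Λ ^ 2 ≤ c * (a * l ^ 4) ^ 4 * (l ^ 2 * s) * l ^ 2 := by gcongr
    _ = c * a ^ 4 * (l ^ 20 * s) := by ring
    _ ≤ c * a ^ 4 * (D * s * s) := by gcongr
    _ = _ := by ring

theorem complete_card (n : ℕ) :
    ((complete n).card : ℝ) = (n : ℝ) * ((n : ℝ) - 1) / 2 := by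
  rw [card_powersetCard, card_univ, Fintype.card_fin, Nat.cast_choose_two]

/-- No heavy edge is left. -/
theorem exp_bound {n : ℕ} {Λ : ℝ} (hn : 1 ≤ (n : ℝ)) (hΛ : 0 < Λ) (hΛ' : Λ ≤ Real.log n) :
    ((complete n).card : ℝ) * Real.exp (-(3 * Real.log n)) ≤ 4 / Λ ^ 2 := by
  rw [Real.exp_neg, show (3 : ℝ) * Real.log n = ((3 : ℕ) : ℝ) * Real.log n by norm_num,
    Real.exp_nat_mul, Real.exp_log (by linarith), ← div_eq_mul_inv,
    div_le_div_iff₀ (by positivity) (by positivity), complete_card]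
  have h3 : Λ ^ 2 ≤ 4 * (n : ℝ) := by
    refine le_trans (pow_le_pow_left₀ hΛ.le hΛ' 2) ?_
    have h2 := log_pow_le hn 2 (by decide)
    rw [Nat.cast_ofNat] at h2
    linarith
  have h4 : (n : ℝ) * ((n : ℝ) - 1) / 2 ≤ (n : ℝ) ^ 2 := by nlinarith
  refine (mul_le_mul h4 h3 (by positivity) (by positivity)).trans (le_of_eq ?_)
  ring

/-- The budget from the complete graph down to `L` is of order `log n`. -/
theorem budget_bound (hsmall : ∀ y : ℝ, |y| ≤ 1 / 8 → psi y ≤ 2 * y ^ 2) {K L : ℝ} {n : ℕ}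
    (hK : 0 ≤ K) (hn : 4 ≤ n) (hlog : 1 ≤ Real.log (n : ℝ)) (hL : (n : ℝ) ≤ L)
    (hc : L ≤ (complete n).card) :
    lyap (complete n) + budget K L (complete n).card ≤ (2 + 2 * K) * Real.log n := by
  have hn' : (4 : ℝ) ≤ n := by exact_mod_cast hn
  have hr : Real.log (((complete n).card : ℝ) / L) ≤ Real.log n := by
    refine Real.log_le_log (div_pos (by linarith) (by linarith)) ?_
    rw [div_le_iff₀ (by linarith), complete_card]
    nlinarith
  have h1 := lyap_complete hsmall hn
  have h2 : K / L ≤ K := div_le_self hK (by linarith)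
  have h3 := mul_le_mul_of_nonneg_left hr (show 0 ≤ K / 3 by positivity)
  have h4 := mul_le_mul_of_nonneg_left hlog hK
  have h5 : 0 ≤ K * Real.log (n : ℝ) := by positivity
  unfold budget; linarith

/-- The stopping level is inside the range of the process. -/
theorem level_range {n : ℕ} {s l : ℝ} (hn : (2 : ℝ) ^ 40 ≤ n) (hl : l = Real.log n)
    (hs : s ^ 2 = (n : ℝ) ^ 3) (hs0 : 0 ≤ s) :
    4 * (l ^ 2 * s) ≤ ((complete n).card : ℝ) := by
  subst hl
  have hn1 : (1 : ℝ) ≤ n := le_trans (by norm_num) hn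
  have h8 := log_pow_le hn1 8 (by decide)
  rw [Nat.cast_ofNat] at h8
  set l := Real.log (n : ℝ)
  have hl4 : (16 * l ^ 2) ^ 2 ≤ (n : ℝ) := by
    have : ((16 * l ^ 2) ^ 2) ^ 2 ≤ (n : ℝ) ^ 2 :=
      calc ((16 * l ^ 2) ^ 2) ^ 2 = 16 ^ 4 * l ^ 8 := by ring
        _ ≤ 16 ^ 4 * (8 ^ 8 * (n : ℝ)) := by gcongr
        _ = 2 ^ 40 * (n : ℝ) := by norm_num; ring
        _ ≤ (n : ℝ) * n := by gcongr
        _ = _ := by ring
    exact (pow_le_pow_iff_left₀ (by positivity) (by linarith) two_ne_zero).1 this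
  have h5 : 16 * l ^ 2 * s ≤ (n : ℝ) ^ 2 := by
    refine (pow_le_pow_iff_left₀ (by positivity) (by positivity) two_ne_zero).1 ?_
    rw [mul_pow, hs]
    calc (16 * l ^ 2) ^ 2 * (n : ℝ) ^ 3 ≤ (n : ℝ) * (n : ℝ) ^ 3 := by gcongr
      _ = _ := by ring
  rw [complete_card]; nlinarith

/-- With high probability the leave is at least `n ^ (3/2)` divided by a power of `log n`. -/
theorem lower_of_step (hstep : ∃ K : ℝ, 0 ≤ K ∧ LyapStep K)
    (hnn : ∀ y : ℝ, -1 ≤ y → 0 ≤ psi y) (hsmall : ∀ y : ℝ, |y| ≤ 1 / 8 → psi y ≤ 2 * y ^ 2)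
    (hsp : SparseBound) :
    ∃ C : ℝ, 0 < C ∧ ∀ n : ℕ, 2 ^ 40 ≤ n → ∀ Λ : ℝ, 2 ≤ Λ → Λ ≤ Real.log n →
      probLT ((n : ℝ) ^ ((3 : ℝ) / 2) / (C * Λ ^ 2 * Real.log n ^ 2)) (complete n)
        ≤ C / Λ ^ 2 := by
  obtain ⟨K, hK, hK'⟩ := hstep
  refine ⟨300000 + 32000000 * 1126 ^ 4 * 20 ^ 20 + 16 * Real.exp (K / 6) * (2 + 2 * K) + 4,
    by positivity, fun n hn Λ hΛ hΛ' => ?_⟩
  set C := (300000 : ℝ) + 32000000 * 1126 ^ 4 * 20 ^ 20 + 16 * Real.exp (K / 6) * (2 + 2 * K) + 4
    with hC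
  have hn' : (2 : ℝ) ^ 40 ≤ n := by exact_mod_cast hn
  have hn1 : (1 : ℝ) ≤ n := by linarith
  set l := Real.log (n : ℝ) with hl
  have hl2 : 2 ≤ l := hΛ.trans hΛ'
  have hnn2 : 2 ≤ n := le_trans (by norm_num) hn
  set s := (n : ℝ) ^ ((3 : ℝ) / 2) with hsdef
  set r := Real.sqrt l with hrdef
  have hr2 : r ^ 2 = l := Real.sq_sqrt (by linarith)
  have hr : 1 ≤ r := Real.one_le_sqrt.2 (by linarith)
  have hrl : r ≤ l := by nlinarith
  have hs2 : s ^ 2 = (n : ℝ) ^ 3 := by
    rw [hsdef, ← Real.rpow_natCast ((n : ℝ) ^ ((3 : ℝ) / 2)) 2, ← Real.rpow_mul (by linarith),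
      show (3 : ℝ) / 2 * ((2 : ℕ) : ℝ) = ((3 : ℕ) : ℝ) by norm_num, Real.rpow_natCast]
  have hsn : (n : ℝ) ≤ s := Real.self_le_rpow_of_one_le hn1 (by norm_num)
  have hs0 : 0 < s := by linarith
  set L := Λ * (s * r) with hLdef
  have hsr : s ≤ s * r := le_mul_of_one_le_right hs0.le hr
  have hLs : 2 * s ≤ L := by nlinarith
  have hL0 : 0 < L := by linarith
  have hL2 : L ^ 2 = Λ ^ 2 * l * s ^ 2 := by rw [hLdef, mul_pow, mul_pow, hr2]; ring
  have hLl : L ≤ l ^ 2 * s :=
    calc L = Λ * r * s := by rw [hLdef]; ring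
      _ ≤ l * l * s := by gcongr
      _ = _ := by ring
  have hN : ((Fintype.card (Fin n) : ℝ)) ^ 3 = s ^ 2 := by rw [Fintype.card_fin, hs2]
  have h4L : 4 * L ≤ ((complete n).card : ℝ) :=
    le_trans (by linarith) (level_range hn' hl hs2 hs0.le)
  set lam := 3 * l / (2 * L) with hlamdef
  set M := ⌈1125 * Λ ^ 2 * l ^ 2⌉₊ with hMdef
  have hx1 : 1 ≤ Λ ^ 2 * l ^ 2 := one_le_mul_of_one_le_of_one_le (by nlinarith) (by nlinarith)
  have hMl : 1125 * Λ ^ 2 * l ^ 2 ≤ (M : ℝ) := Nat.le_ceil _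
  have hMu : (M : ℝ) ≤ 1126 * Λ ^ 2 * l ^ 2 := by
    have := Nat.ceil_lt_add_one (show 0 ≤ 1125 * Λ ^ 2 * l ^ 2 by positivity)
    rw [← hMdef] at this; linarith
  have hM : 3 * lam * (250 * L ^ 3 / (Fintype.card (Fin n) : ℝ) ^ 3) ≤ (M : ℝ) := by
    refine le_trans (le_of_eq ?_) hMl
    rw [hN, hlamdef, show L ^ 3 = L * L ^ 2 by ring, hL2]
    field_simp; ring
  have h := lower_general hK hK' hnn hsp (complete n) (fun e he => (mem_powersetCard.1 he).2)
    (lam := lam) (M := M) (by rw [Fintype.card_fin]; linarith) (show 100 ≤ L by linarith)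
    (by rw [hN]; nlinarith) (by positivity) hM h4L
  rw [hN, endLevel, Real.sqrt_sq hs0.le] at h
  refine le_trans (probLT_mono ?_ _) (h.trans ?_)
  · rw [div_div, div_le_div_iff_of_pos_left hs0 (by positivity) (by positivity)]
    have hC0 : 300000 ≤ C := by
      have : 0 ≤ 16 * Real.exp (K / 6) * (2 + 2 * K) := by positivity
      rw [hC]; linarith
    have h1 := mul_le_mul_of_nonneg_right hC0 (show 0 ≤ Λ ^ 2 * l ^ 2 by positivity)
    linarith
  · have hexp : ((complete n).card : ℝ) * Real.exp (-(lam * (2 * L))) ≤ 4 / Λ ^ 2 := by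
      have e : lam * (2 * L) = 3 * l := by rw [hlamdef]; field_simp
      rw [e, hl]
      exact exp_bound hn1 (by linarith) hΛ'
    have hb : lyap (complete n) + budget K L (complete n).card ≤ (2 + 2 * K) * l :=
      budget_bound hsmall hK (le_trans (by decide) hn) (by linarith) (by linarith) (by linarith)
    have hmid : 16 * Real.exp (K / 6) * s ^ 2 * (lyap (complete n)
        + budget K L (complete n).card) / L ^ 2 ≤ 16 * Real.exp (K / 6) * (2 + 2 * K) / Λ ^ 2 := by
      rw [hL2, div_le_div_iff₀ (by positivity) (by positivity)]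
      have := mul_le_mul_of_nonneg_left hb
        (show 0 ≤ 16 * Real.exp (K / 6) * s ^ 2 * Λ ^ 2 by positivity)
      linarith
    have heps : 32000000 * (M : ℝ) ^ 4 * L / s ^ 2
        ≤ 32000000 * 1126 ^ 4 * 20 ^ 20 / Λ ^ 2 := by
      refine eps_bound (by norm_num) (Nat.cast_nonneg _) hL0.le hs0
        (l := l) ?_ hLl hΛ' ?_ (by linarith)
      · refine hMu.trans ?_
        rw [show l ^ 4 = l ^ 2 * l ^ 2 by ring, ← mul_assoc]
        gcongr
      · have h20 := log_pow_le hn1 20 (by decide)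
        rw [← hl, Nat.cast_ofNat] at h20
        exact h20.trans (mul_le_mul_of_nonneg_left hsn (by positivity))
    refine (add_le_add (add_le_add heps hmid) hexp).trans ?_
    rw [← add_div, ← add_div, hC]
    gcongr
    linarith

/-- The expected leave is at least `n ^ (3/2)` divided by `log n ^ 2`, up to a constant. -/
theorem lower_mean_of_step (hstep : ∃ K : ℝ, 0 ≤ K ∧ LyapStep K)
    (hnn : ∀ y : ℝ, -1 ≤ y → 0 ≤ psi y) (hsmall : ∀ y : ℝ, |y| ≤ 1 / 8 → psi y ≤ 2 * y ^ 2)
    (hsp : SparseBound) :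
    ∃ c : ℝ, 0 < c ∧ ∃ n₀ : ℕ, ∀ n : ℕ, n₀ ≤ n →
      c * (n : ℝ) ^ ((3 : ℝ) / 2) / Real.log n ^ 2 ≤ expLeave (complete n) := by
  obtain ⟨C, hC, h⟩ := lower_of_step hstep hnn hsmall hsp
  set Λ := Real.sqrt (2 * C) + 2 with hΛ
  have hΛ2 : 2 ≤ Λ := by linarith [Real.sqrt_nonneg (2 * C)]
  have hΛC : 2 * C ≤ Λ ^ 2 := by
    have := Real.mul_self_sqrt (show 0 ≤ 2 * C by linarith)
    nlinarith [Real.sqrt_nonneg (2 * C)]
  refine ⟨1 / (2 * C * Λ ^ 2), by positivity, max (2 ^ 40) ⌈Real.exp Λ⌉₊, fun n hn => ?_⟩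
  have hn1 : 2 ^ 40 ≤ n := (le_max_left _ _).trans hn
  have hn2 : Real.exp Λ ≤ n := Nat.ceil_le.1 ((le_max_right _ _).trans hn)
  have hlog : Λ ≤ Real.log n := (Real.le_log_iff_exp_le ((Real.exp_pos Λ).trans_le hn2)).2 hn2
  have hl : 0 < Real.log n := by linarith
  set T := (n : ℝ) ^ ((3 : ℝ) / 2) / (C * Λ ^ 2 * Real.log n ^ 2) with hT
  have hT0 : 0 ≤ T := by positivity
  have hp : probLT T (complete n) ≤ 1 / 2 := (h n hn1 Λ hΛ2 hlog).trans <| by
    rw [div_le_iff₀ (by positivity)]; linarith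
  refine le_trans ?_ (expLeave_ge T (complete n))
  refine le_trans (le_of_eq ?_) (mul_le_mul_of_nonneg_left
    (show (1 : ℝ) / 2 ≤ 1 - probLT T (complete n) by linarith) hT0)
  rw [hT]; field_simp

end Vale.Agent.P046.Track
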