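import Vale.Agent.P046.Track.Count
import Vale.Agent.P046.Track.Psi

/-!
P046: elementary size facts on a state that is on the track.
-/

namespace Vale.Agent.P046.Track

open Finset

variable {V : Type} [Fintype V] [DecidableEq V] {A : Finset (Finset V)}

/-- The regularity facts used in one step. -/
structure OnTrack (A : Finset (Finset V)) : Prop where
  card_ge : (100 : ℝ) ≤ A.card
  dd_ge : 1 ≤ dd A
  dd_sq : dd A ^ 2 ≤ 4 * A.card
  sq_sum : ∑ e ∈ A, dev A e ^ 2 ≤ 10000 * A.card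
  tw_le : |tw A| ≤ 1 / 4

theorem dev_ge' (A : Finset (Finset V)) (e : Finset V) : -1 ≤ dev A e := by
  have : 0 ≤ (codeg A e : ℝ) / dd A :=
    div_nonneg (Nat.cast_nonneg _) (by unfold dd; positivity)
  unfold dev; linarith

theorem onTrack_of_err (h2 : ∀ e ∈ A, e.card = 2) (hE : 100 ≤ A.card) (hD : 1 ≤ dd A)
    (herr : err A ≤ 1 / 4) : OnTrack A := by
  have hE' : (100 : ℝ) ≤ A.card := by exact_mod_cast hE
  have hm0 : 0 ≤ mass A := sum_nonneg fun e _ => psi_nonneg _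
  have hv : 0 ≤ mass A / (A.card : ℝ) := by positivity
  have hw : tw A ^ 2 ≤ 1 / 20 := by unfold err at herr; linarith
  have hm : mass A ≤ (A.card : ℝ) / 4 := by
    have : mass A / (A.card : ℝ) ≤ 1 / 4 := by
      unfold err at herr; nlinarith [sq_nonneg (tw A)]
    rw [div_le_iff₀ (by linarith)] at this
    linarith
  refine ⟨hE', hD, ?_, ?_, ?_⟩
  · have hsub : A ⊆ (univ : Finset V).powersetCard 2 := fun e he =>
      mem_powersetCard.2 ⟨subset_univ _, h2 e he⟩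
    have hc := card_le_card hsub
    rw [card_powersetCard, card_univ] at hc
    have hc' : (A.card : ℝ) ≤ (Fintype.card V : ℝ) ^ 2 / 2 := by
      have h1 : (A.card : ℝ) ≤ ((Fintype.card V).choose 2 : ℕ) := by exact_mod_cast hc
      rw [Nat.cast_choose_two] at h1
      nlinarith [(Nat.cast_nonneg (Fintype.card V) : (0 : ℝ) ≤ Fintype.card V)]
    have hn : (0 : ℝ) < Fintype.card V := by
      nlinarith [(Nat.cast_nonneg (Fintype.card V) : (0 : ℝ) ≤ Fintype.card V)]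
    rw [dd, div_pow, div_le_iff₀ (by positivity)]
    have h3 : (A.card : ℝ) ^ 3 ≤ ((Fintype.card V : ℝ) ^ 2 / 2) ^ 3 := by gcongr
    nlinarith [pow_pos hn 6]
  · calc ∑ e ∈ A, dev A e ^ 2 ≤ ∑ e ∈ A, 40000 * psi (dev A e) :=
          sum_le_sum fun e _ => sq_le_psi (dev_ge' A e)
      _ = 40000 * mass A := by rw [mass, mul_sum]
      _ ≤ _ := by linarith
  · rw [abs_le]
    constructor <;> nlinarith [sq_nonneg (tw A + 1 / 4), sq_nonneg (tw A - 1 / 4)]

namespace OnTrack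

variable (hA : OnTrack A)
include hA

theorem dd_pos : 0 < dd A := lt_of_lt_of_le one_pos hA.dd_ge

theorem card_pos : (0 : ℝ) < A.card := lt_of_lt_of_le (by norm_num) hA.card_ge

theorem dd_le_sqrt : dd A ≤ 2 * Real.sqrt A.card := by
  have h := Real.sqrt_le_sqrt hA.dd_sq
  rw [Real.sqrt_sq hA.dd_pos.le, Real.sqrt_mul (by norm_num) (A.card : ℝ)] at h
  rwa [show Real.sqrt 4 = 2 by rw [show (4 : ℝ) = 2 * 2 by norm_num, Real.sqrt_mul_self]; norm_num]
    at h

theorem sqrt_ge : 10 ≤ Real.sqrt A.card := by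
  rw [Real.le_sqrt (by norm_num) (Nat.cast_nonneg _)]
  linarith [hA.card_ge]

theorem dd_le : dd A ≤ A.card := by
  nlinarith [hA.dd_le_sqrt, hA.sqrt_ge, Real.mul_self_sqrt hA.card_pos.le]

theorem codeg_eq (e : Finset V) : (codeg A e : ℝ) = dd A * (1 + dev A e) := by
  have := hA.dd_pos
  rw [dev]; field_simp; ring

theorem tri_eq : ((tri A).card : ℝ) = (1 + tw A) * ((A.card : ℝ) * dd A) / 3 := by
  have := hA.dd_pos
  have := hA.card_pos
  rw [tw]; field_simp; ring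

theorem tri_ge : (A.card : ℝ) * dd A / 4 ≤ ((tri A).card : ℝ) := by
  rw [hA.tri_eq]
  nlinarith [(abs_le.1 hA.tw_le).1, mul_pos hA.card_pos hA.dd_pos]

theorem tri_le : ((tri A).card : ℝ) ≤ (A.card : ℝ) * dd A := by
  rw [hA.tri_eq]
  nlinarith [(abs_le.1 hA.tw_le).2, mul_pos hA.card_pos hA.dd_pos]

theorem sum_dev : ∑ e ∈ A, dev A e = (A.card : ℝ) * tw A := by
  have := hA.dd_pos
  have := hA.card_pos
  simp only [dev, sum_sub_distrib, ← sum_div, sum_codeg, sum_const, nsmul_eq_mul, mul_one, tw]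
  field_simp

theorem sum_codeg_sq : ∑ e ∈ A, (codeg A e : ℝ) ^ 2
    = dd A ^ 2 * ((A.card : ℝ) * (1 + 2 * tw A) + ∑ e ∈ A, dev A e ^ 2) := by
  simp only [hA.codeg_eq, mul_pow, ← mul_sum]
  congr 1
  rw [mul_add, mul_one, ← mul_assoc, mul_comm (A.card : ℝ) 2, mul_assoc, ← hA.sum_dev, mul_sum]
  simp only [add_sq, one_pow, mul_one, sum_add_distrib, sum_const, nsmul_eq_mul]

theorem sum_codeg_sq_le : ∑ e ∈ A, (codeg A e : ℝ) ^ 2 ≤ 10002 * (dd A ^ 2 * A.card) := by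
  rw [hA.sum_codeg_sq]
  calc dd A ^ 2 * ((A.card : ℝ) * (1 + 2 * tw A) + ∑ e ∈ A, dev A e ^ 2)
      ≤ dd A ^ 2 * (10002 * A.card) := by
        refine mul_le_mul_of_nonneg_left ?_ (sq_nonneg _)
        nlinarith [(abs_le.1 hA.tw_le).2, hA.sq_sum, hA.card_pos]
    _ = _ := by ring

theorem dev_abs_le {e : Finset V} (he : e ∈ A) : |dev A e| ≤ 100 * Real.sqrt A.card := by
  have h : dev A e ^ 2 ≤ 10000 * A.card :=
    le_trans (single_le_sum (f := fun e => dev A e ^ 2) (fun e _ => sq_nonneg _) he) hA.sq_sum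
  have h2 := Real.sqrt_le_sqrt h
  rwa [Real.sqrt_sq_eq_abs, Real.sqrt_mul (by norm_num) (A.card : ℝ),
    show Real.sqrt 10000 = 100 by
      rw [show (10000 : ℝ) = 100 * 100 by norm_num, Real.sqrt_mul_self]; norm_num] at h2

theorem codeg_le {e : Finset V} (he : e ∈ A) :
    (codeg A e : ℝ) ≤ 101 * (dd A * Real.sqrt A.card) := by
  rw [hA.codeg_eq]
  nlinarith [(abs_le.1 (hA.dev_abs_le he)).2, hA.sqrt_ge, hA.dd_pos]

theorem sum_codeg_cube_le : ∑ e ∈ A, (codeg A e : ℝ) ^ 3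
    ≤ 1100000 * (dd A ^ 3 * (A.card * Real.sqrt A.card)) := by
  calc ∑ e ∈ A, (codeg A e : ℝ) ^ 3
      ≤ ∑ e ∈ A, 101 * (dd A * Real.sqrt A.card) * (codeg A e : ℝ) ^ 2 :=
        sum_le_sum fun e he => by
          rw [pow_succ' _ 2]
          exact mul_le_mul_of_nonneg_right (hA.codeg_le he) (sq_nonneg _)
    _ = 101 * (dd A * Real.sqrt A.card) * ∑ e ∈ A, (codeg A e : ℝ) ^ 2 := by rw [mul_sum]
    _ ≤ 101 * (dd A * Real.sqrt A.card) * (10002 * (dd A ^ 2 * A.card)) :=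
        mul_le_mul_of_nonneg_left hA.sum_codeg_sq_le
          (by have := hA.dd_pos; positivity)
    _ ≤ _ := by
        have := hA.dd_pos
        have : 0 ≤ dd A ^ 3 * (A.card * Real.sqrt A.card) := by positivity
        nlinarith

theorem sum_sdeg_sq_le : ∑ s ∈ tri A, sdeg A s ^ 2
    ≤ 3300000 * (dd A ^ 3 * (A.card * Real.sqrt A.card)) := by
  have h : ∑ s ∈ tri A, sdeg A s ^ 2 ≤ ∑ s ∈ tri A, 3 * ∑ e ∈ pairs s, (codeg A e : ℝ) ^ 2 := by
    refine sum_le_sum fun s hs => ?_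
    refine (sq_sum_le_card_mul_sum_sq).trans (le_of_eq ?_)
    rw [pairs_card hs]; norm_num
  rw [← mul_sum, sum_tri_pairs] at h
  have e : ∀ e ∈ A, (codeg A e : ℝ) * (codeg A e : ℝ) ^ 2 = (codeg A e : ℝ) ^ 3 :=
    fun e _ => by ring
  rw [sum_congr rfl e] at h
  linarith [hA.sum_codeg_cube_le]

end OnTrack

end Vale.Agent.P046.Track
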