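import Vale.Agent.P046.Track.Mass
import Vale.Agent.P046.Track.Recursion

/-!
P046: the one-step drift of the Lyapunov function, and the bound on the leave.
-/

namespace Vale.Agent.P046.Track

open Finset

variable {V : Type} [Fintype V] [DecidableEq V] {A : Finset (Finset V)}

/-- The growth factor of `1/(E D)` in one step. -/
noncomputable def rho3 (A : Finset (Finset V)) : ℝ :=
  ((A.card : ℝ) / ((A.card : ℝ) - 3)) ^ 3

namespace OnTrack

variable (hA : OnTrack A)
include hA

theorem rho3_bounds : 1 ≤ rho3 A ∧ rho3 A - 1 ≤ 10 / A.card ∧ rho3 A ≤ 2 ∧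
    |rho3 A - 1 - 9 / A.card| ≤ 100 / (A.card : ℝ) ^ 2 := by
  have h0 := hA.card_ge
  have h3 : (0 : ℝ) < (A.card : ℝ) - 3 := by linarith
  have e : rho3 A - 1 - 9 / A.card
      = (54 * (A.card : ℝ) ^ 2 - 216 * A.card + 243)
        / ((A.card : ℝ) * ((A.card : ℝ) - 3) ^ 3) := by
    have : (A.card : ℝ) ≠ 0 := by linarith
    rw [rho3]; field_simp; ring
  have hb : |rho3 A - 1 - 9 / A.card| ≤ 100 / (A.card : ℝ) ^ 2 := by
    rw [e, abs_of_nonneg (div_nonneg (by nlinarith) (by positivity)),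
      div_le_div_iff₀ (by positivity) (by positivity)]
    nlinarith [mul_pos h3 h3, mul_pos (mul_pos h3 h3) h3]
  have h100 : (100 : ℝ) / (A.card : ℝ) ^ 2 ≤ 1 / A.card := by
    rw [div_le_div_iff₀ (by positivity) (by linarith)]; nlinarith
  have h1 : 1 ≤ rho3 A := by
    rw [rho3]
    refine one_le_pow₀ ?_
    rw [le_div_iff₀ h3]; linarith
  have h2 : rho3 A - 1 ≤ 10 / A.card := by
    rw [show (10 : ℝ) / A.card = 9 / A.card + 1 / A.card by rw [← add_div]; norm_num]
    linarith [(abs_le.1 hb).2]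
  refine ⟨h1, h2, ?_, hb⟩
  have : (10 : ℝ) / A.card ≤ 1 := by rw [div_le_one (by linarith)]; linarith
  linarith

theorem tri_pos : 0 < ((tri A).card : ℝ) := by
  have := hA.tri_ge
  have := mul_pos hA.card_pos hA.dd_pos
  linarith

theorem tw_sdiff {t : Finset V} (ht : t ∈ tri A) :
    tw (A \ pairs t) = tw A + ((1 + tw A) * (rho3 A - 1)
      - rho3 A * (3 * (sdeg A t - 2)) / ((A.card : ℝ) * dd A)) := by
  have hD := hA.dd_pos
  have hE := hA.card_pos
  have h3 : (0 : ℝ) < (A.card : ℝ) - 3 := by linarith [hA.card_ge]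
  have hd : dd (A \ pairs t) = dd A * ((A.card : ℝ) - 3) ^ 2 / (A.card : ℝ) ^ 2 := by
    rw [eq_div_iff (by positivity), dd_sdiff ht]
  rw [tw, hd, card_sdiff_cast ht, ← tri_card_sdiff ht, tw, rho3]
  field_simp
  ring

theorem sum_delta :
    |∑ t ∈ tri A, ((1 + tw A) * (rho3 A - 1)
      - rho3 A * (3 * (sdeg A t - 2)) / ((A.card : ℝ) * dd A))
      - 3 * dd A * (tw A ^ 2 - (∑ e ∈ A, dev A e ^ 2) / A.card)| ≤ 400000 := by
  have hD := hA.dd_pos
  have hE := hA.card_pos
  obtain ⟨hr1, hr2, hr3, hr4⟩ := hA.rho3_bounds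
  have hw := abs_le.1 hA.tw_le
  have e1 : ∑ t ∈ tri A, ((1 + tw A) * (rho3 A - 1)
        - rho3 A * (3 * (sdeg A t - 2)) / ((A.card : ℝ) * dd A))
      = ((tri A).card : ℝ) * (1 + tw A) * (rho3 A - 1)
        - rho3 A * 3 * ((∑ e ∈ A, (codeg A e : ℝ) ^ 2) - 2 * (tri A).card)
          / ((A.card : ℝ) * dd A) := by
    rw [sum_sub_distrib, sum_const, nsmul_eq_mul, ← sum_div, ← mul_sum, ← mul_sum,
      sum_sub_distrib, sum_const, nsmul_eq_mul, sum_sdeg]
    ring
  set S2 := ∑ e ∈ A, (codeg A e : ℝ) ^ 2 with hS2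
  have hS2e := hA.sum_codeg_sq
  rw [← hS2] at hS2e
  have e2 : ((tri A).card : ℝ) * (1 + tw A) * (rho3 A - 1)
        - rho3 A * 3 * (S2 - 2 * (tri A).card) / ((A.card : ℝ) * dd A)
        - 3 * dd A * (tw A ^ 2 - (∑ e ∈ A, dev A e ^ 2) / A.card)
      = ((tri A).card : ℝ) * (1 + tw A) * (rho3 A - 1 - 9 / A.card)
        - (rho3 A - 1) * (3 * S2 / ((A.card : ℝ) * dd A)) + 2 * rho3 A * (1 + tw A) := by
    rw [hS2e, hA.tri_eq]
    field_simp
    ring
  rw [e1, e2]
  have hDE : dd A / (A.card : ℝ) ≤ 1 := by rw [div_le_one hE]; exact hA.dd_le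
  have x1 : |((tri A).card : ℝ) * (1 + tw A) * (rho3 A - 1 - 9 / A.card)| ≤ 200 := by
    rw [abs_mul, abs_mul, Nat.abs_cast, abs_of_nonneg (show 0 ≤ 1 + tw A by linarith)]
    calc ((tri A).card : ℝ) * (1 + tw A) * |rho3 A - 1 - 9 / A.card|
        ≤ ((A.card : ℝ) * dd A) * 2 * (100 / (A.card : ℝ) ^ 2) :=
          mul_le_mul (mul_le_mul hA.tri_le (by linarith) (by linarith) (by positivity)) hr4
            (abs_nonneg _) (by positivity)
      _ = 200 * (dd A / A.card) := by field_simp; ring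
      _ ≤ _ := by linarith
  have hq : 3 * S2 / ((A.card : ℝ) * dd A) ≤ 30006 * dd A := by
    rw [div_le_iff₀ (by positivity)]
    have := hA.sum_codeg_sq_le
    rw [← hS2] at this
    linarith [show 30006 * dd A * ((A.card : ℝ) * dd A) = 3 * (10002 * (dd A ^ 2 * A.card)) by ring]
  have x2 : |(rho3 A - 1) * (3 * S2 / ((A.card : ℝ) * dd A))| ≤ 300060 := by
    have h0 : 0 ≤ 3 * S2 / ((A.card : ℝ) * dd A) := by rw [hS2]; positivity
    rw [abs_of_nonneg (mul_nonneg (by linarith) h0)]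
    calc (rho3 A - 1) * (3 * S2 / ((A.card : ℝ) * dd A)) ≤ 10 / A.card * (30006 * dd A) :=
          mul_le_mul hr2 hq h0 (by positivity)
      _ = 300060 * (dd A / A.card) := by ring
      _ ≤ _ := by linarith
  have x3 : |2 * rho3 A * (1 + tw A)| ≤ 8 := by
    rw [abs_of_nonneg (mul_nonneg (by linarith) (by linarith))]
    calc 2 * rho3 A * (1 + tw A) ≤ 4 * 2 :=
          mul_le_mul (by linarith) (by linarith) (by linarith) (by norm_num)
      _ = _ := by norm_num
  rw [abs_le] at x1 x2 x3 ⊢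
  constructor <;> linarith

theorem sum_delta_sq :
    ∑ t ∈ tri A, ((1 + tw A) * (rho3 A - 1)
      - rho3 A * (3 * (sdeg A t - 2)) / ((A.card : ℝ) * dd A)) ^ 2 ≤ 500000000 := by
  have hD := hA.dd_pos
  have hE := hA.card_pos
  obtain ⟨hr1, hr2, hr3, -⟩ := hA.rho3_bounds
  have hw := abs_le.1 hA.tw_le
  have h : ∀ t ∈ tri A, ((1 + tw A) * (rho3 A - 1)
        - rho3 A * (3 * (sdeg A t - 2)) / ((A.card : ℝ) * dd A)) ^ 2
      ≤ 2 * (2 * (10 / A.card)) ^ 2 + 72 / ((A.card : ℝ) * dd A) ^ 2 * sdeg A t ^ 2 := by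
    intro t ht
    have hS : 3 ≤ sdeg A t := by
      have : ∑ _f ∈ pairs t, (1 : ℝ) ≤ sdeg A t :=
        sum_le_sum fun f hf => by exact_mod_cast codeg_pos ht hf
      rw [sum_const, pairs_card ht] at this
      simpa using this
    have h1 : ((1 + tw A) * (rho3 A - 1)) ^ 2 ≤ (2 * (10 / A.card)) ^ 2 :=
      pow_le_pow_left₀ (mul_nonneg (by linarith) (by linarith))
        (mul_le_mul (by linarith) hr2 (by linarith) (by norm_num)) 2
    have h2 : (rho3 A * (3 * (sdeg A t - 2))) ^ 2 ≤ (6 * sdeg A t) ^ 2 :=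
      pow_le_pow_left₀ (mul_nonneg (by linarith) (by linarith))
        (by calc rho3 A * (3 * (sdeg A t - 2)) ≤ 2 * (3 * sdeg A t) :=
              mul_le_mul hr3 (by linarith) (by linarith) (by norm_num)
            _ = _ := by ring) 2
    have h3 : (rho3 A * (3 * (sdeg A t - 2)) / ((A.card : ℝ) * dd A)) ^ 2
        ≤ (6 * sdeg A t) ^ 2 / ((A.card : ℝ) * dd A) ^ 2 := by
      rw [div_pow]; exact div_le_div_of_nonneg_right h2 (sq_nonneg _)
    have h4 := add_sq_le (a := (1 + tw A) * (rho3 A - 1))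
      (b := -(rho3 A * (3 * (sdeg A t - 2)) / ((A.card : ℝ) * dd A)))
    rw [← sub_eq_add_neg, neg_sq] at h4
    have e : 72 / ((A.card : ℝ) * dd A) ^ 2 * sdeg A t ^ 2
        = 2 * ((6 * sdeg A t) ^ 2 / ((A.card : ℝ) * dd A) ^ 2) := by ring
    linarith
  refine (sum_le_sum h).trans ?_
  rw [sum_add_distrib, sum_const, nsmul_eq_mul, ← mul_sum]
  have hDE : dd A / (A.card : ℝ) ≤ 1 := by rw [div_le_one hE]; exact hA.dd_le
  have hb : dd A * Real.sqrt A.card ≤ 2 * A.card := by
    nlinarith [Real.sqrt_nonneg (A.card : ℝ), hA.dd_le_sqrt, Real.mul_self_sqrt hE.le]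
  have x1 : ((tri A).card : ℝ) * (2 * (2 * (10 / A.card)) ^ 2) ≤ 800 := by
    calc ((tri A).card : ℝ) * (2 * (2 * (10 / A.card)) ^ 2)
        ≤ (A.card : ℝ) * dd A * (2 * (2 * (10 / A.card)) ^ 2) :=
          mul_le_mul_of_nonneg_right hA.tri_le (by positivity)
      _ = 800 * (dd A / A.card) := by field_simp; ring
      _ ≤ _ := by linarith
  have x2 : 72 / ((A.card : ℝ) * dd A) ^ 2 * ∑ t ∈ tri A, sdeg A t ^ 2 ≤ 480000000 := by
    calc 72 / ((A.card : ℝ) * dd A) ^ 2 * ∑ t ∈ tri A, sdeg A t ^ 2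
        ≤ 72 / ((A.card : ℝ) * dd A) ^ 2 *
            (3300000 * (dd A ^ 3 * (A.card * Real.sqrt A.card))) :=
          mul_le_mul_of_nonneg_left hA.sum_sdeg_sq_le (by positivity)
      _ = 237600000 * (dd A * Real.sqrt A.card / A.card) := by field_simp; ring
      _ ≤ 237600000 * 2 := by
          refine mul_le_mul_of_nonneg_left ?_ (by norm_num)
          rw [div_le_iff₀ hE]; exact hb
      _ ≤ _ := by norm_num
  linarith

/-- The triangle-count part. -/
theorem tw_step :
    ∑ t ∈ tri A, dd (A \ pairs t) * tw (A \ pairs t) ^ 2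
      ≤ ((tri A).card : ℝ) * (dd A * tw A ^ 2)
        - 6 * ((tri A).card : ℝ) * (dd A * tw A ^ 2) / A.card
        + dd A * (240000 * |tw A| * lyap A + 600000000) := by
  have hD := hA.dd_pos
  have hE := hA.card_pos
  have hw := hA.tw_le
  have hsd := hA.sum_delta
  have hsq := hA.sum_delta_sq
  have h3 : (0 : ℝ) < (A.card : ℝ) - 3 := by linarith [hA.card_ge]
  set r := ((A.card : ℝ) - 3) ^ 2 / (A.card : ℝ) ^ 2 with hr
  have hrw : ∀ t ∈ tri A, dd (A \ pairs t) * tw (A \ pairs t) ^ 2 =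
      r * dd A * (tw A + ((1 + tw A) * (rho3 A - 1)
        - rho3 A * (3 * (sdeg A t - 2)) / ((A.card : ℝ) * dd A))) ^ 2 := by
    intro t ht
    have hd : dd (A \ pairs t) = r * dd A := by
      rw [hr, div_mul_eq_mul_div, eq_div_iff (by positivity), dd_sdiff ht, mul_comm]
    rw [hd, hA.tw_sdiff ht]
  rw [sum_congr rfl hrw, ← mul_sum]
  simp only [add_sq, sum_add_distrib, sum_const, nsmul_eq_mul, ← mul_sum]
  set SD := ∑ t ∈ tri A, ((1 + tw A) * (rho3 A - 1)
        - rho3 A * (3 * (sdeg A t - 2)) / ((A.card : ℝ) * dd A))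
  set SQ := ∑ t ∈ tri A, ((1 + tw A) * (rho3 A - 1)
        - rho3 A * (3 * (sdeg A t - 2)) / ((A.card : ℝ) * dd A)) ^ 2 with hSQ
  set T := ((tri A).card : ℝ) with hT
  have hm0 : 0 ≤ mass A := sum_nonneg fun e _ => psi_nonneg _
  have hv : 0 ≤ mass A / (A.card : ℝ) := by positivity
  have hQ : (∑ e ∈ A, dev A e ^ 2) / A.card ≤ 40000 * (mass A / A.card) := by
    rw [mul_div_assoc']
    refine div_le_div_of_nonneg_right ?_ hE.le
    rw [mass, mul_sum]
    exact sum_le_sum fun e _ => sq_le_psi (dev_ge' A e)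
  have hQ0 : 0 ≤ (∑ e ∈ A, dev A e ^ 2) / (A.card : ℝ) := by positivity
  have hy : |3 * dd A * (tw A ^ 2 - (∑ e ∈ A, dev A e ^ 2) / A.card)| ≤ 120000 * lyap A := by
    rw [abs_mul, abs_of_pos (show (0 : ℝ) < 3 * dd A by positivity)]
    calc 3 * dd A * |tw A ^ 2 - (∑ e ∈ A, dev A e ^ 2) / A.card|
        ≤ 3 * dd A * (40000 * err A) := by
          refine mul_le_mul_of_nonneg_left ?_ (by positivity)
          rw [abs_le, err]
          constructor <;> nlinarith [sq_nonneg (tw A)]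
      _ = _ := by rw [lyap]; ring
  have hSD : 2 * tw A * SD ≤ 240000 * |tw A| * lyap A + 200000 := by
    have h1 : |SD| ≤ 120000 * lyap A + 400000 := by
      have := abs_add_le (SD - 3 * dd A * (tw A ^ 2 - (∑ e ∈ A, dev A e ^ 2) / A.card))
        (3 * dd A * (tw A ^ 2 - (∑ e ∈ A, dev A e ^ 2) / A.card))
      rw [sub_add_cancel] at this
      linarith
    calc 2 * tw A * SD ≤ |2 * tw A * SD| := le_abs_self _
      _ = 2 * |tw A| * |SD| := by rw [abs_mul, abs_mul, abs_two]
      _ ≤ 2 * |tw A| * (120000 * lyap A + 400000) :=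
          mul_le_mul_of_nonneg_left h1 (by positivity)
      _ ≤ _ := by nlinarith [abs_nonneg (tw A)]
  have hr1 : r ≤ 1 := by
    rw [hr, div_le_one (by positivity)]; nlinarith
  have hr0 : 0 ≤ r := by rw [hr]; positivity
  have hA1 : r * dd A * (2 * tw A * SD + SQ)
      ≤ dd A * (240000 * |tw A| * lyap A + 500200000) := by
    have h0 : 0 ≤ lyap A := by
      rw [lyap, err]; positivity
    calc r * dd A * (2 * tw A * SD + SQ)
        ≤ r * dd A * (240000 * |tw A| * lyap A + 500200000) :=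
          mul_le_mul_of_nonneg_left (by linarith) (by positivity)
      _ ≤ 1 * dd A * (240000 * |tw A| * lyap A + 500200000) :=
          mul_le_mul_of_nonneg_right (mul_le_mul_of_nonneg_right hr1 hD.le) (by positivity)
      _ = _ := by ring
  have hA2 : 9 * T * (dd A * tw A ^ 2) / (A.card : ℝ) ^ 2 ≤ dd A * 99800000 := by
    rw [div_le_iff₀ (by positivity)]
    have ht2 : tw A ^ 2 ≤ 1 := by nlinarith [abs_le.1 hw]
    calc 9 * T * (dd A * tw A ^ 2) ≤ 9 * ((A.card : ℝ) * (A.card : ℝ)) * (dd A * 1) :=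
          mul_le_mul (mul_le_mul_of_nonneg_left (hA.tri_le.trans
            (mul_le_mul_of_nonneg_left hA.dd_le hE.le)) (by norm_num))
            (mul_le_mul_of_nonneg_left ht2 hD.le) (by positivity) (by positivity)
      _ ≤ _ := by nlinarith [mul_pos hD (mul_pos hE hE)]
  have e : r * dd A * (T * tw A ^ 2) = T * (dd A * tw A ^ 2)
      - 6 * T * (dd A * tw A ^ 2) / A.card + 9 * T * (dd A * tw A ^ 2) / (A.card : ℝ) ^ 2 := by
    rw [hr]; field_simp; ring
  linarith [show r * dd A * (T * tw A ^ 2 + 2 * tw A * SD + SQ)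
    = r * dd A * (T * tw A ^ 2) + r * dd A * (2 * tw A * SD + SQ) by ring]

end OnTrack

/-- **The one-step drift of the Lyapunov function.** -/
theorem lyap_step : ∃ K : ℝ, 0 ≤ K ∧ LyapStep K := by
  refine ⟨40000000000, by norm_num, ?_⟩
  intro V _ _ A h2 hE100 hD1 herr
  have hA := onTrack_of_err h2 hE100 hD1 herr
  have hD := hA.dd_pos
  have hE := hA.card_pos
  have hm0 : 0 ≤ mass A := sum_nonneg fun e _ => psi_nonneg _
  set T := ((tri A).card : ℝ) with hT
  have hms := hA.mass_step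
  have hts := hA.tw_step
  rw [← hT] at hms hts
  have hexp : ∀ t ∈ tri A, lyap (A \ pairs t)
      = dd A * ((A.card : ℝ) - 3) / (A.card : ℝ) ^ 2 * mass (A \ pairs t)
        + 5 * (dd (A \ pairs t) * tw (A \ pairs t) ^ 2) := by
    intro t ht
    have h3 : (0 : ℝ) < (A.card : ℝ) - 3 := by linarith [hA.card_ge]
    have hd : dd (A \ pairs t) = dd A * ((A.card : ℝ) - 3) ^ 2 / (A.card : ℝ) ^ 2 := by
      rw [eq_div_iff (by positivity), dd_sdiff ht]
    rw [lyap, err, card_sdiff_cast ht, hd]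
    field_simp
  rw [sum_congr rfl hexp, sum_add_distrib, ← mul_sum, ← mul_sum]
  set B := 4 * tw A ^ 2 * A.card * dd A + 1000 * |tw A| * (dd A * mass A)
      + 4000000000 * A.card with hB
  have hB0 : 0 ≤ B := by rw [hB]; positivity
  have h3 : 0 ≤ (A.card : ℝ) - 3 := by linarith [hA.card_ge]
  have hM : dd A * ((A.card : ℝ) - 3) / (A.card : ℝ) ^ 2 * ∑ t ∈ tri A, mass (A \ pairs t)
      ≤ T * (dd A * (mass A / A.card)) + dd A / A.card * B := by
    calc dd A * ((A.card : ℝ) - 3) / (A.card : ℝ) ^ 2 * ∑ t ∈ tri A, mass (A \ pairs t)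
        ≤ dd A * ((A.card : ℝ) - 3) / (A.card : ℝ) ^ 2 * (T * mass A * (1 + 3 / A.card) + B) := by
          refine mul_le_mul_of_nonneg_left ?_ (by positivity)
          refine hms.trans (le_of_eq ?_)
          rw [hB]; ring
      _ = dd A * T * mass A / A.card * (((A.card : ℝ) - 3) * ((A.card : ℝ) + 3)
            / (A.card : ℝ) ^ 2) + dd A / A.card * B * (((A.card : ℝ) - 3) / A.card) := by
          field_simp
      _ ≤ dd A * T * mass A / A.card * 1 + dd A / A.card * B * 1 := by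
          refine add_le_add (mul_le_mul_of_nonneg_left ?_ (by positivity))
            (mul_le_mul_of_nonneg_left ?_ (by positivity))
          · rw [div_le_one (by positivity)]; nlinarith
          · rw [div_le_one hE]; linarith
      _ = _ := by ring
  have hl0 : 0 ≤ mass A / (A.card : ℝ) := by positivity
  have hmle : dd A * (mass A / A.card) ≤ lyap A := by
    rw [lyap, err]
    exact mul_le_mul_of_nonneg_left (by linarith [sq_nonneg (tw A)]) hD.le
  have hBe : dd A / A.card * B = 4 * (dd A * (dd A * tw A ^ 2))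
      + 1000 * dd A * (|tw A| * (dd A * (mass A / A.card))) + 4000000000 * dd A := by
    rw [hB]; field_simp
  have hTE : dd A / 4 ≤ T / A.card := by
    rw [le_div_iff₀ hE]; have := hA.tri_ge; rw [← hT] at this; linarith
  have hneg : 4 * (dd A * (dd A * tw A ^ 2)) ≤ 30 * T * (dd A * tw A ^ 2) / A.card := by
    rw [show 30 * T * (dd A * tw A ^ 2) / A.card = 30 * (T / A.card) * (dd A * tw A ^ 2) by ring,
      show 4 * (dd A * (dd A * tw A ^ 2)) = 4 * dd A * (dd A * tw A ^ 2) by ring]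
    exact mul_le_mul_of_nonneg_right (by linarith) (by positivity)
  have hlyap0 : 0 ≤ lyap A := by rw [lyap, err]; positivity
  have hK : dd A * (2000000 * |tw A| * lyap A + 7000000000)
      ≤ T / A.card * (40000000000 * |tw A| * lyap A + 40000000000) := by
    calc dd A * (2000000 * |tw A| * lyap A + 7000000000)
        = dd A / 4 * (8000000 * |tw A| * lyap A + 28000000000) := by ring
      _ ≤ T / A.card * (40000000000 * |tw A| * lyap A + 40000000000) := by
          refine mul_le_mul hTE ?_ (by positivity) (by positivity)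
          nlinarith [mul_nonneg (abs_nonneg (tw A)) hlyap0]
  have h1000 := mul_le_mul_of_nonneg_left (mul_le_mul_of_nonneg_left hmle (abs_nonneg (tw A)))
    (show 0 ≤ 1000 * dd A by positivity)
  have htl : T * lyap A = T * (dd A * (mass A / A.card)) + 5 * (T * (dd A * tw A ^ 2)) := by
    rw [lyap, err]; ring
  have e1 : T * (lyap A * (1 + 40000000000 * |tw A| / A.card) + 40000000000 / A.card)
      = T * lyap A + T / A.card * (40000000000 * |tw A| * lyap A + 40000000000) := by ring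
  rw [e1]
  have e2 : 5 * (dd A * (240000 * |tw A| * lyap A + 600000000))
      + 1000 * dd A * (|tw A| * lyap A) + 4000000000 * dd A
      ≤ dd A * (2000000 * |tw A| * lyap A + 7000000000) := by
    nlinarith [mul_nonneg hD.le (mul_nonneg (abs_nonneg (tw A)) hlyap0)]
  linarith [show 5 * (6 * T * (dd A * tw A ^ 2) / A.card) = 30 * T * (dd A * tw A ^ 2) / A.card by ring]

end Vale.Agent.P046.Track
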