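import Vale.Agent.P046.Collapse
import Vale.Agent.P046.Track.Psi

/-!
A state on track has a potential of order `E / √D` after deducting its isolated triangles.
-/

namespace Vale.Agent.P046.Track

open Finset

variable {V : Type} [Fintype V] [DecidableEq V]

/-- The potential of an edge with codegree at most `4D`. -/
theorem pot_lower {c : ℕ} {D : ℝ} (hD : 1 ≤ D) (hc : (c : ℝ) ≤ 4 * D) :
    2 / (15 * Real.sqrt D) ≤ pot c := by
  have hs : 1 ≤ Real.sqrt D := Real.one_le_sqrt.2 hD
  cases c with
  | zero =>
    rw [pot, div_le_one (by positivity)]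
    linarith
  | succ j =>
    have hq := q_pos j
    have hj : 2 * (j : ℝ) + 1 ≤ 9 * D := by push_cast at hc; linarith
    have h1 : 1 ≤ (q j * (3 * Real.sqrt D)) ^ 2 := by
      rw [mul_pow, mul_pow, Real.sq_sqrt (by linarith)]
      refine (q_sq j).trans ?_
      refine mul_le_mul_of_nonneg_left ?_ (sq_nonneg _)
      linarith
    have h2 : 1 ≤ q j * (3 * Real.sqrt D) := by
      rw [← abs_of_pos (show 0 < q j * (3 * Real.sqrt D) by positivity), ← one_le_sq_iff_one_le_abs]
      exact h1
    rw [pot, div_le_iff₀ (by positivity)]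
    linarith

/-- The weight is at least `1/8` where the codegree is off by a factor more than `8` below or
`4` above. -/
theorem psi_off {y : ℝ} (h : y ≤ -(7 / 8) ∨ 3 < y) : 1 / 8 ≤ psi y := by
  rcases h with h | h
  · rw [(psi_of_low (by linarith : y ≤ -(1 / 8))).1]; linarith
  · rw [(psi_of_nonneg (by linarith : 0 ≤ y)).1]
    have h1 : 1 / 8 ≤ y ^ 2 / (1 + y) := by
      rw [le_div_iff₀ (by linarith)]; nlinarith
    have : 0 ≤ (y ^ 2 / (1 + y)) ^ 2 := sq_nonneg _
    linarith

/-- On track, the potential less the isolated triangles is at least `E / (20 √D)`. -/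
theorem netPot_ge (A : Finset (Finset V)) (M : ℕ) (hD : 16 ≤ dd A) (herr : err A ≤ 1 / 64) :
    (A.card : ℝ) / (20 * Real.sqrt (dd A)) ≤ netPot M A := by
  have hE : (0 : ℝ) < A.card := by
    by_contra hc
    have h0 : (A.card : ℝ) = 0 := le_antisymm (not_lt.1 hc) (Nat.cast_nonneg _)
    rw [dd, h0] at hD
    norm_num at hD
  set D := dd A with hDdef
  have hD0 : 0 < D := by linarith
  -- the edges off the window
  set off := A.filter fun e => ¬ (2 ≤ codeg A e ∧ (codeg A e : ℝ) ≤ 4 * D) with hoff
  set good := A.filter fun e => 2 ≤ codeg A e ∧ (codeg A e : ℝ) ≤ 4 * D with hgood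
  have hoff8 : 1 / 8 * (off.card : ℝ) ≤ mass A := by
    rw [mul_comm, ← nsmul_eq_mul]
    refine le_trans (card_nsmul_le_sum off (fun e => psi (dev A e)) _ fun e he => ?_)
      (sum_le_sum_of_subset_of_nonneg (filter_subset _ _) fun e _ _ => psi_nonneg _)
    have he' := (mem_filter.1 he).2
    refine psi_off ?_
    by_cases h2 : 2 ≤ codeg A e
    · right
      have hc : 4 * D < (codeg A e : ℝ) := not_le.1 fun hc => he' ⟨h2, hc⟩
      rw [dev, ← hDdef, lt_sub_iff_add_lt, lt_div_iff₀ hD0]
      linarith
    · left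
      have hc : (codeg A e : ℝ) ≤ 1 := by exact_mod_cast (by omega : codeg A e ≤ 1)
      rw [dev, ← hDdef, sub_le_iff_le_add, div_le_iff₀ hD0]
      linarith
  have hmass : mass A ≤ (A.card : ℝ) / 64 := by
    have h : mass A / (A.card : ℝ) ≤ 1 / 64 := le_trans (by
      unfold err
      linarith [sq_nonneg (tw A)]) herr
    rw [div_le_iff₀ hE] at h
    linarith
  have hgood7 : 7 / 8 * (A.card : ℝ) ≤ good.card := by
    have h : (good.card : ℝ) + off.card = A.card := by
      exact_mod_cast card_filter_add_card_filter_not (s := A)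
        (fun e => 2 ≤ codeg A e ∧ (codeg A e : ℝ) ≤ 4 * D)
    linarith
  -- the isolated triangles take only edges in one triangle
  have hiso : 6 / 5 * ((isoSet A).card : ℝ)
      ≤ ∑ e ∈ A.filter (fun e => codeg A e = 1), pot (codeg A e) := by
    have hdis : ((isoSet A : Finset (Finset V)) : Set (Finset V)).PairwiseDisjoint pairs := by
      intro s hs s' hs' hne
      refine disjoint_left.2 fun e he he' => hne ?_
      obtain ⟨hsA, h1⟩ := mem_filter.1 hs
      exact card_le_one.1 (h1 e he).le s (mem_filter.2 ⟨hsA, he⟩) s'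
        (mem_filter.2 ⟨(mem_filter.1 hs').1, he'⟩)
    have hsub : (isoSet A).biUnion pairs ⊆ A.filter (fun e => codeg A e = 1) := by
      intro e he
      obtain ⟨s, hs, hes⟩ := mem_biUnion.1 he
      exact mem_filter.2 ⟨tri_sub (mem_filter.1 hs).1 hes, (mem_filter.1 hs).2 e hes⟩
    refine le_trans (le_of_eq ?_) (sum_le_sum_of_subset_of_nonneg hsub
      fun e _ _ => (pot_le_one _).1)
    rw [sum_biUnion hdis, mul_comm, ← nsmul_eq_mul, ← sum_const]
    refine sum_congr rfl fun s hs => ?_
    rw [sum_congr rfl fun e he => by rw [(mem_filter.1 hs).2 e he], sum_const,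
      pairs_card (mem_filter.1 hs).1]
    norm_num [pot, q]
  have hsplit : ∑ e ∈ good, pot (codeg A e)
      + ∑ e ∈ A.filter (fun e => codeg A e = 1), pot (codeg A e) ≤ total A := by
    rw [total, ← sum_union (disjoint_left.2 fun e he he' => by
      have := (mem_filter.1 he).2.1
      have := (mem_filter.1 he').2
      omega)]
    exact sum_le_sum_of_subset_of_nonneg (union_subset (filter_subset _ _) (filter_subset _ _))
      fun e _ _ => (pot_le_one _).1
  have hlow : (good.card : ℝ) * (2 / (15 * Real.sqrt D)) ≤ ∑ e ∈ good, pot (codeg A e) := by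
    rw [← nsmul_eq_mul]
    exact card_nsmul_le_sum _ _ _ fun e he =>
      pot_lower (by linarith) (mem_filter.1 he).2.2
  have hzero : 0 ≤ 12 / 5 * (M : ℝ) * (zeroSet A).card := by positivity
  have hs : 0 < Real.sqrt D := Real.sqrt_pos.2 hD0
  have hfin : (A.card : ℝ) / (20 * Real.sqrt D) ≤ 7 / 8 * (A.card : ℝ) * (2 / (15 * Real.sqrt D)) := by
    rw [mul_div_assoc', div_le_div_iff₀ (by positivity) (by positivity)]
    nlinarith [mul_pos hE hs]
  have := mul_le_mul_of_nonneg_right hgood7 (show 0 ≤ 2 / (15 * Real.sqrt D) by positivity)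
  unfold netPot
  linarith

end Vale.Agent.P046.Track
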