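import Vale.Agent.P046.Track.Defs

/-!
P046: exact double counts for one step of the process.
-/

namespace Vale.Agent.P046.Track

open Finset

variable {V : Type} [Fintype V] [DecidableEq V] {A : Finset (Finset V)}

/-- The sum of the three codegrees of a triangle. -/
noncomputable def sdeg (A : Finset (Finset V)) (s : Finset V) : ℝ :=
  ∑ f ∈ pairs s, (codeg A f : ℝ)

/-- A sum over triangles and their edges is a sum over edges weighted by codegrees. -/
theorem sum_tri_pairs (A : Finset (Finset V)) (g : Finset V → ℝ) :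
    ∑ s ∈ tri A, ∑ e ∈ pairs s, g e = ∑ e ∈ A, (codeg A e : ℝ) * g e := by
  rw [sum_comm' (t' := A) (s' := fun e => (tri A).filter fun s => e ∈ pairs s)]
  · exact sum_congr rfl fun e _ => by rw [sum_const, nsmul_eq_mul]; rfl
  · intro s e
    simp only [mem_filter]
    exact ⟨fun ⟨hs, he⟩ => ⟨⟨hs, he⟩, tri_sub hs he⟩, fun h => h.1⟩

theorem sum_codeg (A : Finset (Finset V)) :
    ∑ e ∈ A, (codeg A e : ℝ) = 3 * ((tri A).card : ℝ) := by
  have h := sum_tri_pairs A fun _ => (1 : ℝ)
  simp only [mul_one] at h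
  rw [← h, sum_congr rfl fun s hs => by rw [sum_const, pairs_card hs], sum_const]
  simp [mul_comm]

theorem sum_sdeg (A : Finset (Finset V)) :
    ∑ s ∈ tri A, sdeg A s = ∑ e ∈ A, (codeg A e : ℝ) ^ 2 := by
  simp only [sdeg, sum_tri_pairs, sq]

/-- The triangles through the other edges of `s`. -/
theorem partners_eq {s e : Finset V} (hs : s ∈ tri A) (he : e ∈ pairs s) :
    (((tri A).filter fun t => e ∉ pairs t ∧ ¬ Disjoint (pairs s) (pairs t)).card : ℝ)
      = sdeg A s - codeg A e - 2 := by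
  have h2 : ((pairs s).erase e).card = 2 := by rw [card_erase_of_mem he, pairs_card hs]
  have e1 : sdeg A s - codeg A e - 2 = ∑ f ∈ (pairs s).erase e, ((codeg A f : ℝ) - 1) := by
    rw [sum_sub_distrib, sum_const, h2, sdeg, ← sum_erase_add _ _ he]
    simp
  rw [e1]
  refine le_antisymm ?_ (partners_lower hs he)
  let S := fun f => (((tri A).filter fun t => f ∈ pairs t).erase s)
  have hS : ∀ f ∈ (pairs s).erase e, ((codeg A f : ℝ) - 1) = ((S f).card : ℝ) := by
    intro f hf
    have hf' := (mem_erase.1 hf).2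
    simp only [S]
    rw [card_erase_of_mem (mem_filter.2 ⟨hs, hf'⟩), ← codeg,
      Nat.cast_sub (codeg_pos hs hf'), Nat.cast_one]
  rw [sum_congr rfl hS, ← Nat.cast_sum, Nat.cast_le]
  refine le_trans ?_ card_biUnion_le
  refine card_le_card fun t ht => ?_
  obtain ⟨htA, het, hd⟩ := mem_filter.1 ht
  obtain ⟨f, hfs, hft⟩ := not_disjoint_iff.1 hd
  simp only [S, mem_biUnion, mem_erase, mem_filter]
  exact ⟨f, ⟨fun h => het (h ▸ hft), hfs⟩, fun h => het (h ▸ he), htA, hft⟩

/-- Weighted count of the lost incidences. -/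
theorem sum_lost (A : Finset (Finset V)) (g : Finset V → ℝ) :
    ∑ t ∈ tri A, ∑ e ∈ A \ pairs t, g e * ((lost A t e).card : ℝ)
      = ∑ s ∈ tri A, ∑ e ∈ pairs s, g e * (sdeg A s - codeg A e - 2) := by
  have h1 : ∀ t ∈ tri A, ∑ e ∈ A \ pairs t, g e * ((lost A t e).card : ℝ)
      = ∑ s ∈ tri A, ∑ e ∈ pairs s,
          if e ∉ pairs t ∧ ¬ Disjoint (pairs s) (pairs t) then g e else 0 := by
    intro t _
    simp only [← sum_filter]
    rw [sum_comm' (t' := A \ pairs t) (s' := fun e => lost A t e)]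
    · exact sum_congr rfl fun e _ => by rw [sum_const, nsmul_eq_mul, mul_comm]
    · intro s e
      simp only [mem_filter, lost, mem_sdiff]
      exact ⟨fun ⟨hs, he, hn, hd⟩ => ⟨⟨hs, he, hd⟩, tri_sub hs he, hn⟩,
        fun ⟨⟨hs, he, hd⟩, _, hn⟩ => ⟨hs, he, hn, hd⟩⟩
  rw [sum_congr rfl h1, sum_comm (s := tri A) (t := tri A)]
  refine sum_congr rfl fun s hs => ?_
  rw [sum_comm]
  refine sum_congr rfl fun e he => ?_
  rw [← sum_filter, sum_const, nsmul_eq_mul, partners_eq hs he, mul_comm]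

theorem lost_le {t e : Finset V} (ht : t ∈ tri A) (he : e ∉ pairs t) :
    (lost A t e).card ≤ 3 := by
  rw [← pairs_card ht]
  have hex : ∀ s ∈ lost A t e, ∃ f, f ∈ pairs s ∧ f ∈ pairs t := fun s hs =>
    not_disjoint_iff.1 (mem_filter.1 hs).2.2
  choose f hf using hex
  calc (lost A t e).card = (lost A t e).attach.card := (card_attach).symm
    _ ≤ (pairs t).card := by
      refine card_le_card_of_injOn (fun s => f s.1 s.2) (fun s _ => (hf s.1 s.2).2) ?_
      intro s _ s' _ h
      simp only at h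
      obtain ⟨hsA, hes, -⟩ := mem_filter.1 s.2
      obtain ⟨hsA', hes', -⟩ := mem_filter.1 s'.2
      have hne : e ≠ f s.1 s.2 := fun h' => he (h' ▸ (hf s.1 s.2).2)
      exact Subtype.ext (eq_of_two_pairs hsA hsA' hne hes (hf s.1 s.2).1 hes'
        (h ▸ (hf s'.1 s'.2).1))

/-- The triangles destroyed by the removal of `t`. -/
theorem tri_card_sdiff {t : Finset V} (ht : t ∈ tri A) :
    ((tri A).card : ℝ) - ((tri (A \ pairs t)).card : ℝ) = sdeg A t - 2 := by
  have h := card_filter_add_card_filter_not (s := tri A)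
    (p := fun s => Disjoint (pairs s) (pairs t))
  rw [← tri_sdiff] at h
  have h' : (((tri (A \ pairs t)).card : ℕ) : ℝ)
      + ((((tri A).filter fun s => ¬ Disjoint (pairs s) (pairs t)).card : ℕ) : ℝ)
      = ((tri A).card : ℝ) := by exact_mod_cast h
  obtain ⟨e, he⟩ : ∃ e, e ∈ pairs t := card_pos.1 (by rw [pairs_card ht]; norm_num)
  have h2 := card_filter_add_card_filter_not
    (s := (tri A).filter fun s => ¬ Disjoint (pairs s) (pairs t)) (p := fun s => e ∉ pairs s)
  simp only [filter_filter] at h2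
  have ea : ((tri A).filter fun s => ¬ Disjoint (pairs s) (pairs t) ∧ e ∉ pairs s)
      = (tri A).filter fun s => e ∉ pairs s ∧ ¬ Disjoint (pairs t) (pairs s) :=
    filter_congr fun s _ => by rw [disjoint_comm, and_comm]
  have eb : ((tri A).filter fun s => ¬ Disjoint (pairs s) (pairs t) ∧ ¬ e ∉ pairs s)
      = (tri A).filter fun s => e ∈ pairs s :=
    filter_congr fun s _ => ⟨fun h => not_not.1 h.2,
      fun h => ⟨not_disjoint_iff.2 ⟨e, h, he⟩, not_not.2 h⟩⟩
  rw [ea, eb] at h2
  have h2' : ((((tri A).filter fun s => e ∉ pairs s ∧ ¬ Disjoint (pairs t) (pairs s)).card : ℕ) : ℝ)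
      + (codeg A e : ℝ)
      = ((((tri A).filter fun s => ¬ Disjoint (pairs s) (pairs t)).card : ℕ) : ℝ) := by
    exact_mod_cast h2
  rw [partners_eq ht he] at h2'
  linarith

end Vale.Agent.P046.Track
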