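import Vale.Agent.P046.Drift

/-!
P046: the Lyapunov function that keeps the triangle removal process on its track.

With `D = 4E²/n³` the predicted codegree of an edge set with `E` edges, each edge `e` has the
deviation `y = codeg e / D - 1`. The weight `psi y` is close to `y² - y³` near `0`, which cancels
the cubic skew of the second moment, and is asymmetric in the tails.
-/

namespace Vale.Agent.P046.Track

open Finset

/-- The weight without the quadratic upper tail. -/
noncomputable def psi0 (y : ℝ) : ℝ :=
  if 0 ≤ y then y ^ 2 / (1 + y)
  else if -(1 / 8) ≤ y then y ^ 2 - y ^ 3 - 12 * y ^ 4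
  else (-208 * y - 11) / 1024

/-- The derivative of `psi0`. -/
noncomputable def dpsi0 (y : ℝ) : ℝ :=
  if 0 ≤ y then y * (2 + y) / (1 + y) ^ 2
  else if -(1 / 8) ≤ y then 2 * y - 3 * y ^ 2 - 48 * y ^ 3
  else -(13 / 64)

/-- The weight. -/
noncomputable def psi (y : ℝ) : ℝ :=
  if 0 ≤ y then psi0 y + psi0 y ^ 2 / 10000 else psi0 y

/-- The derivative of `psi`. -/
noncomputable def dpsi (y : ℝ) : ℝ :=
  if 0 ≤ y then dpsi0 y * (1 + psi0 y / 5000) else dpsi0 y

/-- The contribution of one edge of a triangle to the drift, apart from the coupling. -/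
noncomputable def own (y : ℝ) : ℝ := dpsi y * y - psi y * (2 + y) / (1 + y)

variable {V : Type} [Fintype V] [DecidableEq V]

/-- The predicted codegree `4E²/n³`. -/
noncomputable def dd (A : Finset (Finset V)) : ℝ :=
  4 * (A.card : ℝ) ^ 2 / (Fintype.card V : ℝ) ^ 3

/-- The deviation of the codegree of an edge from its prediction. -/
noncomputable def dev (A : Finset (Finset V)) (e : Finset V) : ℝ := (codeg A e : ℝ) / dd A - 1

/-- The total weight of the deviations. -/
noncomputable def mass (A : Finset (Finset V)) : ℝ := ∑ e ∈ A, psi (dev A e)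

/-- The deviation of the number of triangles from its prediction. -/
noncomputable def tw (A : Finset (Finset V)) : ℝ :=
  3 * ((tri A).card : ℝ) / ((A.card : ℝ) * dd A) - 1

/-- The mean squared deviation, as measured by `psi` and by the triangle count. -/
noncomputable def err (A : Finset (Finset V)) : ℝ := mass A / (A.card : ℝ) + 5 * tw A ^ 2

/-- The Lyapunov function. -/
noncomputable def lyap (A : Finset (Finset V)) : ℝ := dd A * err A

end Vale.Agent.P046.Track
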