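import Vale.Agent.P046.Track.Lower
import Vale.Agent.P046.Track.Sparse
import Vale.Agent.P046.Track.Step

/-!
The lower bound for the leave, unconditionally.
-/

namespace Vale.Agent.P046.Track

open Finset

theorem leave_lower :
    (∃ c : ℝ, 0 < c ∧ ∃ n₀ : ℕ, ∀ n : ℕ, n₀ ≤ n →
      c * (n : ℝ) ^ ((3 : ℝ) / 2) / Real.log n ^ 2 ≤ expLeave (complete n)) ∧
    (∀ ε : ℝ, 0 < ε → ∃ c : ℝ, 0 < c ∧ ∃ n₀ : ℕ, ∀ n : ℕ, n₀ ≤ n →
      probLT (c * (n : ℝ) ^ ((3 : ℝ) / 2) / Real.log n ^ 2) (complete n) ≤ ε) := by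
  have hnn : ∀ y : ℝ, -1 ≤ y → 0 ≤ psi y := fun y _ => psi_nonneg y
  have hsm : ∀ y : ℝ, |y| ≤ 1 / 8 → psi y ≤ 2 * y ^ 2 := fun y h => psi_small h
  have hsp : SparseBound := fun V _ _ A M => netPot_ge A M
  refine ⟨lower_mean_of_step lyap_step hnn hsm hsp, fun ε hε => ?_⟩
  obtain ⟨C, hC, h⟩ := lower_of_step lyap_step hnn hsm hsp
  set Λ := Real.sqrt (C / ε) + 2 with hΛdef
  have hs := Real.sqrt_nonneg (C / ε)
  have hΛ : C / ε ≤ Λ ^ 2 := by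
    have := Real.mul_self_sqrt (show 0 ≤ C / ε by positivity)
    rw [hΛdef]; nlinarith
  refine ⟨1 / (C * Λ ^ 2), by positivity, max (2 ^ 40) ⌈Real.exp Λ⌉₊, fun n hn => ?_⟩
  have hn1 : 2 ^ 40 ≤ n := (le_max_left _ _).trans hn
  have hn2 : Real.exp Λ ≤ n := Nat.ceil_le.1 ((le_max_right _ _).trans hn)
  have hlog : Λ ≤ Real.log n := (Real.le_log_iff_exp_le ((Real.exp_pos Λ).trans_le hn2)).2 hn2
  have h' := h n hn1 Λ (by linarith) hlog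
  rw [show 1 / (C * Λ ^ 2) * (n : ℝ) ^ ((3 : ℝ) / 2) / Real.log n ^ 2
    = (n : ℝ) ^ ((3 : ℝ) / 2) / (C * Λ ^ 2 * Real.log n ^ 2) by field_simp]
  refine h'.trans ?_
  rw [div_le_iff₀ hε] at hΛ
  rw [div_le_iff₀ (by positivity)]
  linarith

end Vale.Agent.P046.Track
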